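import Vale.Agent.P022K.PL.Defs
import Vale.Agent.P022K.Fin.Res
import Vale.Agent.P179M21.Ex

/-!
# A point with integral values factors through a complete discrete valuation ring
-/

set_option linter.all false

noncomputable section

namespace Vale.Agent.P022K.O2.D1

open IsLocalRing MvPowerSeries
open Vale.Agent.P022K.PL (Cf)

variable {O : Type} [CommRing O] [IsDomain O] [IsDiscreteValuationRing O] [hO : Cf O]

/-- the integral closure in a finite separable extension -/
theorem cf_clo (K L : Type) [Field K] [Algebra O K] [IsFractionRing O K] [Field L]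
    [Algebra K L] [Algebra O L] [IsScalarTower O K L] [FiniteDimensional K L]
    [Algebra.IsSeparable K L] :
    ∃ _ : IsDiscreteValuationRing (integralClosure O L), Cf (integralClosure O L) ∧
      Module.Finite O (integralClosure O L) := by
  let S := integralClosure O L
  haveI := hO.cpl
  haveI := hO.fin
  haveI : Module.Finite O S := IsIntegralClosure.finite O K L S
  haveI : IsDedekindDomain S := IsIntegralClosure.isDedekindDomain O K L S
  have inj : Function.Injective (algebraMap O S) := fun a b h => by
    have := congrArg (algebraMap S L) h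
    rw [← IsScalarTower.algebraMap_apply, ← IsScalarTower.algebraMap_apply,
      IsScalarTower.algebraMap_apply O K L, IsScalarTower.algebraMap_apply O K L] at this
    exact IsFractionRing.injective O K ((algebraMap K L).injective this)
  haveI : FaithfulSMul O S := (faithfulSMul_iff_algebraMap_injective O S).2 inj
  haveI := P179M21.prec_fin (maximalIdeal O) S
  haveI : IsAdicComplete (maximalIdeal O) S := {}
  let J := (maximalIdeal O).map (algebraMap O S)
  haveI : IsAdicComplete J S := (IsAdicComplete.map_algebraMap_iff _ _).2 inferInstance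
  haveI : Finite (S ⧸ J) := by
    haveI : Finite (O ⧸ maximalIdeal O) := hO.fin
    exact Module.finite_of_finite (O ⧸ maximalIdeal O)
  haveI : IsArtinianRing (S ⧸ J) := isArtinian_of_finite
  haveI := P179M21.local_of J
  have nf : ¬IsField S := fun h => IsDiscreteValuationRing.not_isField O
    ((Algebra.IsIntegral.isField_iff_isField inj).2 h)
  haveI : IsDiscreteValuationRing S := ((IsDiscreteValuationRing.TFAE S nf).out 2 0).1 ‹_›
  have hJ : J ≤ maximalIdeal S := by
    have := IsAdicComplete.le_jacobson_bot J
    rwa [jacobson_eq_maximalIdeal _ bot_ne_top] at this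
  refine ⟨‹_›, ⟨?_, ?_⟩, ‹_›⟩
  · have h := ((IsDiscreteValuationRing.TFAE S nf).out 2 6).1 ‹_›
    obtain ⟨n, hn⟩ := h J (fun h => IsDiscreteValuationRing.not_a_field O
      ((Ideal.map_eq_bot_iff_of_injective inj).1 h))
    have h0 : n ≠ 0 := by
      rintro rfl
      rw [hn, pow_zero, Ideal.one_eq_top, top_le_iff] at hJ
      exact (maximalIdeal.isMaximal S).ne_top hJ
    haveI := P179M21.prec_pow (maximalIdeal S) h0 (hn ▸ inferInstance)
    exact {}
  · exact Finite.of_surjective _ (Ideal.Quotient.factor_surjective hJ)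

/-- a power series ring modulo an ideal with integral quotient is finite -/
theorem fin_quot {τ : Type} [Finite τ] (J : Ideal (MvPowerSeries τ O)) (hJ : J ≠ ⊤)
    (h : Algebra.IsIntegral O (MvPowerSeries τ O ⧸ J)) :
    Module.Finite O (MvPowerSeries τ O ⧸ J) := by
  haveI := hO.cpl
  haveI : Nontrivial (MvPowerSeries τ O ⧸ J) := Ideal.Quotient.nontrivial_iff.2 hJ
  haveI : IsLocalRing (MvPowerSeries τ O ⧸ J) :=
    IsLocalRing.of_surjective' _ Ideal.Quotient.mk_surjective
  have hm : (maximalIdeal (MvPowerSeries τ O ⧸ J)).comap (Ideal.Quotient.mk J) =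
      maximalIdeal _ := eq_maximalIdeal
    (Ideal.comap_isMaximal_of_surjective _ Ideal.Quotient.mk_surjective)
  have hc : ∀ u : MvPowerSeries τ O, constantCoeff u ∈ maximalIdeal O →
      Ideal.Quotient.mk J u ∈ maximalIdeal (MvPowerSeries τ O ⧸ J) := fun u hu => by
    rw [← Ideal.mem_comap, hm]
    exact fun h1 => hu (isUnit_iff_constantCoeff.1 h1)
  haveI : Module.Finite O ((MvPowerSeries τ O ⧸ J) ⧸ maximalIdeal (MvPowerSeries τ O ⧸ J)) := by
    refine Module.Finite.of_surjective (Algebra.linearMap O _) fun z => ?_
    obtain ⟨z, rfl⟩ := Ideal.Quotient.mk_surjective z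
    obtain ⟨u, rfl⟩ := Ideal.Quotient.mk_surjective z
    refine ⟨constantCoeff u, Ideal.Quotient.eq.2 ?_⟩
    exact hc (C (constantCoeff u) - u) (by simp)
  refine FinR.fin_of_prime (Ideal.map_le_iff_le_comap.2 fun a ha => hc (C a) (by simpa using ha))
    fun p hp hI => ?_
  have e : maximalIdeal O = p.comap (algebraMap O _) :=
    (maximalIdeal.isMaximal O).eq_of_le (Ideal.IsPrime.ne_top inferInstance)
      (Ideal.map_le_iff_le_comap.1 hI)
  exact (eq_maximalIdeal (Ideal.isMaximal_of_isIntegral_of_isMaximal_comap (R := O) p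
    (e ▸ inferInstance))).ge

/-- **DVR**: the point `x` and finitely many more integral elements come from a complete discrete
valuation ring which is finite over `O` -/
theorem ex_dvr [CharZero O] {τ Ω : Type} [Finite τ] [Field Ω] [Algebra O Ω] [FaithfulSMul O Ω]
    (x : MvPowerSeries τ O →ₐ[O] Ω) (hx : ∀ u, IsIntegral O (x u)) {S : Set Ω} (hS : S.Finite)
    (hi : ∀ s ∈ S, IsIntegral O s) :
    ∃ (V : Type) (_ : CommRing V) (_ : IsDomain V) (_ : IsDiscreteValuationRing V) (_ : Cf V)
      (_ : CharZero V) (_ : Algebra O V) (ι : V →ₐ[O] Ω) (y : MvPowerSeries τ O →ₐ[O] V),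
      Function.Injective ι ∧ (∀ u, ι (y u) = x u) ∧ S ⊆ Set.range ι ∧ Module.Finite O V ∧
      (∀ a ∈ maximalIdeal O, algebraMap O V a ∈ maximalIdeal V) ∧
      ∀ u ∈ maximalIdeal (MvPowerSeries τ O), y u ∈ maximalIdeal V := by
  let K := FractionRing O
  letI : Algebra K Ω := FractionRing.liftAlgebra O Ω
  haveI : IsScalarTower O K Ω := FractionRing.isScalarTower_liftAlgebra O Ω
  haveI : CharZero K := charZero_of_injective_algebraMap (IsFractionRing.injective O K)
  have hf : Module.Finite O (MvPowerSeries τ O ⧸ RingHom.ker x) :=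
    fin_quot _ (RingHom.ker_ne_top _) ⟨fun z => by
      obtain ⟨u, rfl⟩ := Ideal.Quotient.mk_surjective z
      exact (isIntegral_algHom_iff (Ideal.kerLiftAlg x) (Ideal.kerLiftAlg_injective x)).1 (hx u)⟩
  obtain ⟨T, hT⟩ := hf.fg_top
  let G : Set Ω := Ideal.kerLiftAlg x '' T ∪ S
  have hG : ∀ g ∈ G, IsIntegral O g := by
    rintro g (⟨z, -, rfl⟩ | hg)
    · obtain ⟨u, rfl⟩ := Ideal.Quotient.mk_surjective z
      exact hx u
    · exact hi g hg
  haveI : Finite G := ((T.finite_toSet.image _).union hS).to_subtype
  let L := IntermediateField.adjoin K G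
  haveI : FiniteDimensional K L :=
    IntermediateField.finiteDimensional_adjoin fun g hg => (hG g hg).tower_top
  have hxL : ∀ u, x u ∈ L := fun u => by
    have h1 : Ideal.Quotient.mk (RingHom.ker x) u ∈ Submodule.span O (T : Set _) :=
      hT ▸ Submodule.mem_top
    have h2 : ∀ z ∈ Submodule.span O (T : Set (MvPowerSeries τ O ⧸ RingHom.ker x)),
        Ideal.kerLiftAlg x z ∈ L := fun z hz => by
      induction hz using Submodule.span_induction with
      | mem z hz => exact IntermediateField.subset_adjoin K G (Or.inl ⟨z, hz, rfl⟩)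
      | zero => rw [map_zero]; exact zero_mem _
      | add a b _ _ ha hb => rw [map_add]; exact add_mem ha hb
      | smul o a _ ha =>
        rw [map_smul, Algebra.smul_def, IsScalarTower.algebraMap_apply O K Ω]
        exact mul_mem (L.algebraMap_mem _) ha
    exact h2 _ h1
  obtain ⟨_, hcf, hfin⟩ := cf_clo (O := O) K L
  let v : L →ₐ[O] Ω := (L.val).restrictScalars O
  have hv : Function.Injective v := Subtype.val_injective
  let x1 : MvPowerSeries τ O →ₐ[O] L :=
    { toFun := fun u => ⟨x u, hxL u⟩
      map_one' := Subtype.ext (map_one x)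
      map_mul' := fun a b => Subtype.ext (map_mul x a b)
      map_zero' := Subtype.ext (map_zero x)
      map_add' := fun a b => Subtype.ext (map_add x a b)
      commutes' := fun o => Subtype.ext (x.commutes o) }
  let y : MvPowerSeries τ O →ₐ[O] integralClosure O L :=
    x1.codRestrict _ fun u => (isIntegral_algHom_iff v hv).1 (hx u)
  haveI : CharZero L := charZero_of_injective_algebraMap (algebraMap K L).injective
  have hy : ∀ u ∈ maximalIdeal (MvPowerSeries τ O), y u ∈ maximalIdeal (integralClosure O L) := by
    intro u hu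
    have h1 : (y : MvPowerSeries τ O →+* integralClosure O L).IsIntegral :=
      RingHom.IsIntegral.tower_top (algebraMap O _) _ (by
        rw [y.comp_algebraMap]
        exact fun z => Algebra.IsIntegral.isIntegral z)
    rw [← eq_maximalIdeal (Ideal.isMaximal_comap_of_isIntegral_of_isMaximal' _ h1
      (maximalIdeal _))] at hu
    exact hu
  refine ⟨integralClosure O L, inferInstance, inferInstance, ‹_›, hcf, inferInstance,
    inferInstance, v.comp (integralClosure O L).val, y, hv.comp Subtype.val_injective,
    fun u => rfl, fun s hs => ?_, hfin, fun a ha => ?_, hy⟩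
  · exact ⟨⟨⟨s, IntermediateField.subset_adjoin K G (Or.inr hs)⟩,
      (isIntegral_algHom_iff v hv).1 (hi s hs)⟩, rfl⟩
  · rw [← y.commutes]
    exact hy (C a) fun h1 => ha (by simpa using isUnit_iff_constantCoeff.1 h1)

end Vale.Agent.P022K.O2.D1
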