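import Vale.Agent.P022D.L2.Ar

/-! P022K, block O2: Kummer cocycles of an orbit of numbers; the square classes at two. -/

set_option linter.all false

noncomputable section

namespace Vale.Agent.P022K.O2.Km

open Vale.Agent.P022D.L2 Vale.Agent.P022D.L2.Ar P025H25

section gen

variable {k L : Type} [Field k] [Field L] [Algebra k L] [CharZero L] [IsGalois k L] [IsAlgClosed L]

/-- the Kummer cocycle of the orbit `v`, twisted by `lam` -/
theorem orb {G : Type} [Group G] [TopologicalSpace G] (ι : G →* Gal(L / k)) (hι : Continuous ι)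
    {A : Type} [CommRing A] {m M : ℕ} [NeZero M] (h2 : (2 : A) ^ (m + 1) = 0) {ν : A}
    (hν : ν ^ M = 1) (e lam : G →* A) (hl : IsLocallyConstant lam)
    (he : ∀ x, ∃ n : ℕ, e x = n ∧ ∀ ζ : L, ζ ^ 2 ^ (m + 1) = 1 → ι x ζ = ζ ^ n)
    (v : ZMod M → L) (v0 : ∀ j, v j ≠ 0)
    (hv : ∀ x, ∃ n : ℕ, lam x = ν ^ n ∧ ∀ j, ι x (v j) = v (j + n)) :
    ∃ (c : G → A) (S : L) (b : G → ZMod 2), Coc (fun x => e x * lam x) c ∧ S ^ 2 = ∏ j, v j ∧
      (∀ x, ι x S = sg L (b x) * S) ∧ ∀ x, c x - ((b x).val : A) ∈ Ideal.span {2, ν - 1} := by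
  have q0 : 0 < 2 ^ (m + 1) := by positivity
  haveI : NeZero (2 ^ (m + 1)) := ⟨q0.ne'⟩
  obtain ⟨ζ, hζ⟩ := HasEnoughRootsOfUnity.exists_primitiveRoot L (2 ^ (m + 1))
  have h4 : ζ ^ 2 ^ m = -1 :=
    (hζ.pow q0 (show 2 ^ (m + 1) = 2 ^ m * 2 from rfl)).eq_neg_one_of_two_right
  let E := AddChar.zmodChar (2 ^ (m + 1)) hζ.pow_eq_one
  have Ea : ∀ a, E a = ζ ^ a.val := fun a => rfl
  have inj : ∀ {r : L}, r ≠ 0 → Function.Injective fun a => E a * r := fun r0 a b h =>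
    ZMod.val_injective _ (hζ.pow_inj (ZMod.val_lt a) (ZMod.val_lt b) (mul_right_cancel₀ r0 h))
  choose θ hθ using fun y : L => IsAlgClosed.exists_pow_nat_eq y q0
  have θ0 : ∀ y, y ≠ 0 → θ y ≠ 0 := fun y hy h => hy (by rw [← hθ y, h, zero_pow q0.ne'])
  have ex : ∀ (y : L) (x : G), ∃ a, y ≠ 0 → ι x (θ y) = E a * θ (ι x y) := fun y x => by
    by_cases hy : y = 0
    · exact ⟨0, fun h => (h hy).elim⟩
    have h1 := (map_ne_zero (ι x)).2 hy
    obtain ⟨i, -, hi⟩ := hζ.eq_pow_of_pow_eq_one (ξ := ι x (θ y) / θ (ι x y))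
      (by rw [div_pow, ← map_pow, hθ, hθ, div_self h1])
    exact ⟨i, fun _ => by rw [AddChar.zmodChar_apply', hi, div_mul_cancel₀ _ (θ0 _ h1)]⟩
  choose cc hc using ex
  have dv : ringChar A ∣ 2 ^ (m + 1) := (ringChar.spec A _).1 (by exact_mod_cast h2)
  let π : ZMod (2 ^ (m + 1)) →+* A := ZMod.castHom dv A
  let N := AddChar.zmodChar M hν
  have Nn : ∀ n : ℕ, N n = ν ^ n := fun n => AddChar.zmodChar_apply' hν n
  have lcc : ∀ y, y ≠ 0 → IsLocallyConstant (cc y) := fun y hy => by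
    have a1 := ((lc (k := k) (θ y)).comp_continuous hι).comp₂ ((lc (k := k) y).comp_continuous hι)
      fun s t => s / θ t * 1
    refine IsLocallyConstant.desc _ _ ?_ (inj one_ne_zero)
    convert a1 using 1
    funext x
    show E _ * 1 = ι x (θ y) / θ (ι x y) * 1
    rw [hc y x hy, mul_div_cancel_right₀ _ (θ0 _ ((map_ne_zero (ι x)).2 hy))]
  have coc : ∀ y, y ≠ 0 → ∀ x x', π (cc y (x * x')) = π (cc (ι x' y) x) + e x * π (cc y x') :=
    fun y hy x x' => by
    obtain ⟨n, e1, e2⟩ := he x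
    have h1 := (map_ne_zero (ι x')).2 hy
    have a1 : cc y (x * x') = cc (ι x' y) x + n * cc y x' :=
      inj (θ0 _ ((map_ne_zero (ι (x * x'))).2 hy)) (by
        show E _ * _ = E _ * _
        rw [← hc y _ hy, map_mul, AlgEquiv.mul_apply, AlgEquiv.mul_apply, hc y _ hy, map_mul,
          hc _ _ h1, AddChar.map_add_eq_mul, ← nsmul_eq_mul, AddChar.map_nsmul_eq_pow,
          e2 (E _) (by rw [Ea, ← pow_mul, mul_comm, pow_mul, hζ.pow_eq_one, one_pow])]
        ring)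
    rw [a1, map_add, map_mul, map_natCast, e1]
  let red : ZMod (2 ^ (m + 1)) →+* ZMod 2 := ZMod.castHom (dvd_pow_self 2 m.succ_ne_zero) _
  refine ⟨fun x => lam x * ∑ j, π (cc (v j) x) * N j, (∏ j, θ (v j)) ^ 2 ^ m,
    fun x => red (∑ j, cc (v j) x), ⟨?_, fun x y => ?_⟩, ?_, fun x => ?_, fun x => ?_⟩
  · have a1 : IsLocallyConstant fun x j => cc (v j) x := by
      refine (IsLocallyConstant.iff_eventually_eq _).2 fun x => ?_
      have := Filter.eventually_all.2 fun j => (lcc _ (v0 j)).eventually_eq x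
      exact this.mono fun y hy => funext hy
    exact hl.comp₂ a1 fun s t => s * ∑ j, π (t j) * N j
  · obtain ⟨n, e1, e2⟩ := hv y
    have a1 : ∑ j, π (cc (v j) x) * N j = ∑ j, π (cc (v (j + n)) x) * N (j + n) :=
      (Equiv.sum_comp (Equiv.addRight (n : ZMod M)) fun j => π (cc (v j) x) * N j).symm
    beta_reduce
    rw [a1, map_mul]
    simp only [coc _ (v0 _), e2, AddChar.map_add_eq_mul, Nn, e1, Finset.mul_sum,
      ← Finset.sum_add_distrib]
    exact Finset.sum_congr rfl fun j _ => by ring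
  · rw [← pow_mul, ← pow_succ, ← Finset.prod_pow]
    exact Finset.prod_congr rfl fun j _ => hθ _
  · obtain ⟨n, -, e2⟩ := hv x
    have a1 : ∏ j, θ (v (j + n)) = ∏ j, θ (v j) :=
      Equiv.prod_comp (Equiv.addRight (n : ZMod M)) fun j => θ (v j)
    have a2 : ∀ s : Finset (ZMod M), ∏ j ∈ s, E (cc (v j) x) = E (∑ j ∈ s, cc (v j) x) :=
      fun s => by
      induction s using Finset.induction_on with
      | empty => simp
      | insert j s hj ih => rw [Finset.prod_insert hj, Finset.sum_insert hj, ih,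
          AddChar.map_add_eq_mul]
    rw [map_pow, map_prod]
    simp only [hc _ _ (v0 _), e2]
    rw [Finset.prod_mul_distrib, a1, a2, mul_pow, Ea, ← pow_mul, mul_comm _ (2 ^ m), pow_mul, h4,
      sg, neg_one_pow_eq_pow_mod_two, ZMod.castHom_apply, ZMod.cast_eq_val, ZMod.val_natCast]
  · obtain ⟨n, e1, -⟩ := hv x
    rw [← Ideal.Quotient.eq]
    set mk := Ideal.Quotient.mk (Ideal.span ({2, ν - 1} : Set A))
    have a1 : mk ν = 1 := by
      rw [← map_one mk, Ideal.Quotient.eq]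
      exact Ideal.subset_span (by simp)
    have a2 : mk 2 = 0 := Ideal.Quotient.eq_zero_iff_mem.2 (Ideal.subset_span (by simp))
    have a3 : ∀ j, mk (N j) = 1 := fun j => by
      rw [show N j = ν ^ j.val from rfl, map_pow, a1, one_pow]
    have a4 : ∀ t, mk (π t) = mk ((red t).val : A) := fun t => by
      rw [← ZMod.natCast_zmod_val t, map_natCast, map_natCast red, ZMod.val_natCast, map_natCast,
        map_natCast]
      conv_lhs => rw [← Nat.mod_add_div t.val 2]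
      rw [map_ofNat] at a2
      push_cast
      rw [a2, zero_mul, add_zero]
    simp only [e1, map_mul, map_pow, a1, one_pow, one_mul, map_sum mk, a3, mul_one]
    rw [← map_sum, ← map_sum, a4]

end gen

/-- the algebraic closure of the `2`-adic numbers -/
abbrev Om : Type := AlgebraicClosure ℚ_[2]

/-- its Galois group -/
abbrev GG : Type := Gal(Om / ℚ_[2])

theorem cup_add {G : Type} [Group G] [TopologicalSpace G] {a b c : G → ZMod 2}
    (h1 : Cup0 (a + c) (a + b)) (h2 : Cup0 a b) (h3 : Cup0 c a) (h4 : Cup0 c b) : Cup0 a a := by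
  obtain ⟨z1, l1, e1⟩ := h1
  obtain ⟨z2, l2, e2⟩ := h2
  obtain ⟨z3, l3, e3⟩ := h3
  obtain ⟨z4, l4, e4⟩ := h4
  refine ⟨z1 - z2 - z3 - z4, ((l1.sub l2).sub l3).sub l4, fun x y => ?_⟩
  simp only [Pi.sub_apply, e1, e2, e3, e4, Pi.add_apply]
  ring

/-- the characters of `-1, 2, 5` -/
theorem loc (s : Fin 3 → Om) (a : Fin 3 → GG → ZMod 2) (e0 : s 0 ^ 2 = -1) (e1 : s 1 ^ 2 = 2)
    (e2 : s 2 ^ 2 = 5) (ku : ∀ i, Ku (s i) (a i)) :
    (∃ g : Fin 3 → GG, ∀ i j, a i (g j) = if i = j then 1 else 0) ∧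
    (∀ b, Coc (fun _ => 1) b → ∃ m : Fin 3 → ZMod 2, b = fun x => ∑ i, m i * a i x) ∧
    ¬ Cup0 (a 2) (a 1) := by
  have n0 : s 0 ≠ 0 := fun h => by rw [h] at e0; norm_num at e0
  have n1 : s 1 ≠ 0 := fun h => by rw [h] at e1; norm_num at e1
  have n2 : s 2 ≠ 0 := fun h => by rw [h] at e2; norm_num at e2
  have k0 := ku 0
  have k1 := ku 1
  have k2 := ku 2
  have hom : ∀ i, Coc (fun _ => 1) (a i) := fun i => by
    fin_cases i
    exacts [k0.coc n0, k1.coc n1, k2.coc n2]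
  have cl : ∀ m : Fin 3 → ZMod 2, ∃ t : Om, t ^ 2 = D m ∧ Ku t fun x => ∑ i, m i * a i x :=
    fun m => ⟨s 0 ^ (m 0).val * s 1 ^ (m 1).val * s 2 ^ (m 2).val, by
      rw [mul_pow, mul_pow, ← pow_mul, ← pow_mul, ← pow_mul, pow_mul', pow_mul', pow_mul', e0, e1,
        e2, D]
      push_cast
      rfl, fun x => by
      simp only [Fin.sum_univ_three]
      exact ((k0.pow (m 0)).mul (k1.pow (m 1))).mul (k2.pow (m 2)) x⟩
  have inj := (algebraMap ℚ_[2] Om).injective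
  obtain ⟨g, hg⟩ := basis a hom fun m hm => by
    obtain ⟨t, e, ks⟩ := cl m
    obtain ⟨c, hc⟩ := (InfiniteGalois.mem_range_algebraMap_iff_fixed (k := ℚ_[2]) t).2 fun x => by
      rw [ks]
      beta_reduce
      rw [hm, sg0, one_mul]
    exact D_nsq m c (inj (by rw [map_pow, hc, e, map_intCast]))
  refine ⟨⟨g, hg⟩, fun b hb => ?_, fun h => ?_⟩
  · obtain ⟨l, l0, hl⟩ := kum (L := Om) ⊤ isClosed_univ hb.1 fun x _ y _ => by rw [hb.2, one_mul]
    have hl : Ku l b := fun x => hl x trivial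
    obtain ⟨c, hc⟩ := (InfiniteGalois.mem_range_algebraMap_iff_fixed (k := ℚ_[2]) (l ^ 2)).2
      fun x => by rw [map_pow, hl, mul_pow, sq (sg _ _), sg_sq, one_mul]
    obtain ⟨i, hi, w, -, hw⟩ := exists_class_Q2 c fun h => pow_ne_zero 2 l0 (by
      rw [← hc, h, map_zero])
    obtain ⟨p, q, r, hm⟩ := D_sur ⟨i, hi⟩
    obtain ⟨t, e, ks⟩ := cl ![p, q, r]
    exact ⟨_, hl.uniq l0 (ks.sq w (by
      rw [← hc, hw, mul_pow, e, hm, map_mul, map_pow, map_intCast, mul_comm]))⟩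
  · obtain ⟨w, hw, -⟩ := exists_sq_of_one_mod_eight (-7) (by
      rw [map_neg, map_ofNat]; rfl)
    have hw : (w : ℚ_[2]) ^ 2 = -7 := by exact_mod_cast congrArg (fun x : ℤ_[2] => (x : ℚ_[2])) hw
    have h0 := cup_add (cup (mul_ne_zero n0 n2) (k0.mul k1) (mul_ne_zero n0 n1) (k0.mul k2) w 1 (by
      rw [← map_pow, hw, mul_pow, mul_pow, e0, e1, e2, map_neg, map_ofNat, map_one]; norm_num))
      (cup n0 k1 n1 k0 1 1 (by rw [e0, e1, map_one]; norm_num))
      (cup n2 k0 n0 k2 2 1 (by rw [e0, e2, map_one, map_ofNat]; norm_num)) h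
    obtain ⟨p, q, e⟩ := ncup k0 n0 (g 0) (by rw [hg]; rfl) h0
    refine not_split_of_T 2 2 (by norm_num) (by norm_num) (by decide) ⟨p, q, inj ?_⟩
    rw [show R 2 = -1 by decide, e0] at *
    simp only [map_add, map_mul, map_pow, map_intCast, map_one]
    push_cast
    linear_combination -e

theorem cls5 (y : ℤ_[2]) : ∃ w : ℚ_[2], (5 : ℚ_[2]) + 8 * y = 5 * w ^ 2 := by
  obtain ⟨w, -, h⟩ := exists_sq_of_unit_class (5 + 8 * y) 5 (by norm_num) (by
    simp only [map_mul, map_add, map_ofNat, map_intCast]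
    generalize PadicInt.toZModPow 3 y = t
    revert t
    decide)
  exact ⟨w, by exact_mod_cast h⟩

theorem cls3 (y : ℤ_[2]) : ∃ w : ℚ_[2], (3 : ℚ_[2]) + 4 * y = -1 * w ^ 2 ∨
    (3 : ℚ_[2]) + 4 * y = -5 * w ^ 2 := by
  have h : ∀ t : ZMod (2 ^ 3), (3 + 4 * t) * ((-1 : ℤ) : ZMod (2 ^ 3)) = 1 ∨
      (3 + 4 * t) * ((-5 : ℤ) : ZMod (2 ^ 3)) = 1 := by decide
  rcases h (PadicInt.toZModPow 3 y) with h | h
  · obtain ⟨w, -, e⟩ := exists_sq_of_unit_class (3 + 4 * y) (-1) (by norm_num) (by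
      simpa only [map_mul, map_add, map_ofNat, map_intCast] using h)
    exact ⟨w, .inl (by exact_mod_cast e)⟩
  · obtain ⟨w, -, e⟩ := exists_sq_of_unit_class (3 + 4 * y) (-5) (by norm_num) (by
      simpa only [map_mul, map_add, map_ofNat, map_intCast] using h)
    exact ⟨w, .inr (by exact_mod_cast e)⟩

theorem prod_exp {R ι : Type} [CommRing R] (t : R) (y : ι → R) (s : Finset ι) :
    ∃ z, ∏ j ∈ s, (1 + t * y j) = 1 + t * ∑ j ∈ s, y j + t ^ 2 * z := by
  classical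
  induction s using Finset.induction_on with
  | empty => exact ⟨0, by simp⟩
  | insert j s hj ih =>
    obtain ⟨z, hz⟩ := ih
    exact ⟨z + y j * ∑ j ∈ s, y j + t * y j * z, by
      rw [Finset.prod_insert hj, Finset.sum_insert hj, hz]; ring⟩

end Vale.Agent.P022K.O2.Km
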