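import Vale.Agent.P022K.O2.Coc
import Vale.Agent.P022K.O2.Kum
import Vale.Agent.P022K.RT.Tr

/-! P022K, block O2: row AR. -/

set_option linter.all false

noncomputable section

namespace Vale.Agent.P022K.O2

open NumberField
open Vale.Agent.P022 Vale.Agent.P022D
open Vale.Agent.P022D.L2 (Coc Cup0)
open Vale.Agent.P022D.L2.Ar (sg Ku z2 sg0 sg1 sg_inj sg_add pm lc)
open Vale.Agent.P027M.S (Inert)
open Vale.Agent.P022D.W (dec)
open Vale.Agent.P022E.GW (Ov Fb)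
open Vale.Agent.P022K.GW (Id)

namespace Km

theorem root_eq {R : Type} [CommRing R] [IsDomain R] {P : Ideal R} (hP : P.IsPrime) {N : ℕ}
    (hN : (N : R) ∉ P) {a b : R} (ha : a ^ N = 1) (hb : b ^ N = 1) (h : a - b ∈ P) : a = b := by
  by_contra hn
  have h1 := geom_sum₂_mul a b N
  rw [ha, hb, sub_self] at h1
  have h2 := congrArg (Ideal.Quotient.mk P) ((mul_eq_zero.1 h1).resolve_right (sub_ne_zero.2 hn))
  rw [map_sum, map_zero] at h2
  simp only [map_mul, map_pow, Ideal.Quotient.eq.2 h] at h2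
  rw [geom_sum₂_self, ← map_pow, ← map_natCast (Ideal.Quotient.mk P), ← map_mul,
    Ideal.Quotient.eq_zero_iff_mem] at h2
  have h3 := hP.mem_of_pow_mem _ ((hP.mem_or_mem h2).resolve_left hN)
  have N0 : N ≠ 0 := by rintro rfl; exact hN (by simp)
  exact hP.ne_top ((Ideal.eq_top_iff_one _).2 (hb ▸ Ideal.pow_mem_of_mem _ h3 N (by omega)))

/-- a root of unity whose trace is a unit -/
theorem ex_om {R : Type} [CommRing R] [IsDomain R] {P : Ideal R} {M : ℕ} [NeZero M] {ζ : R}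
    (hζ : IsPrimitiveRoot ζ (2 ^ M - 1)) (hN : ((2 ^ M - 1 : ℕ) : R) ∉ P) :
    ∃ ω : R, ω ^ (2 ^ M - 1) = 1 ∧ ∑ j : ZMod M, ω ^ 2 ^ j.val ∉ P := by
  by_contra hn
  push Not at hn
  obtain ⟨N, e⟩ : ∃ N, 2 ^ M - 1 = N + 1 := ⟨2 ^ M - 2, by
    have := Nat.one_lt_two_pow (NeZero.ne M)
    omega⟩
  rw [e] at hζ hN hn
  have h1 : ∑ t ∈ Finset.range (N + 1), (ζ ^ t) ^ N * ∑ j : ZMod M, (ζ ^ t) ^ 2 ^ j.val ∈ P :=
    P.sum_mem fun t _ => P.mul_mem_left _ (hn _ (by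
      rw [← pow_mul, mul_comm, pow_mul, hζ.pow_eq_one, one_pow]))
  simp only [Finset.mul_sum] at h1
  rw [Finset.sum_comm, Finset.sum_eq_single 0] at h1
  · refine hN ?_
    convert h1 using 1
    have : ∀ t, (ζ ^ t) ^ N * (ζ ^ t) ^ 2 ^ (0 : ZMod M).val = 1 := fun t => by
      rw [ZMod.val_zero, pow_zero, ← pow_add, ← pow_mul, mul_comm, pow_mul, hζ.pow_eq_one, one_pow]
    simp only [this]
    simp
  · intro j _ hj
    have a1 : 0 < j.val := ZMod.val_pos.2 hj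
    have a2 : 2 ^ (j.val + 1) ≤ 2 ^ M := Nat.pow_le_pow_right two_pos (ZMod.val_lt j)
    have a3 : 1 < 2 ^ j.val := Nat.one_lt_two_pow a1.ne'
    have a4 := geom_sum_mul (ζ ^ (N + 2 ^ j.val)) (N + 1)
    rw [← pow_mul, mul_comm (N + _), pow_mul, hζ.pow_eq_one, one_pow, sub_self] at a4
    have a5 : ζ ^ (N + 2 ^ j.val) ≠ 1 := by
      rw [show N + 2 ^ j.val = N + 1 + (2 ^ j.val - 1) by omega, pow_add, hζ.pow_eq_one, one_mul]
      exact hζ.pow_ne_one_of_pos_of_lt (by omega) (by rw [pow_succ] at a2; omega)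
    rw [← (mul_eq_zero.1 a4).resolve_right (sub_ne_zero.2 a5)]
    exact Finset.sum_congr rfl fun t _ => by rw [← pow_add, ← pow_mul, ← pow_mul, mul_comm]
  · simp

theorem per {R : Type} [CommRing R] {M : ℕ} [NeZero M] {ω : R} (h : ω ^ (2 ^ M - 1) = 1) (n : ℕ) :
    ω ^ 2 ^ (n : ZMod M).val = ω ^ 2 ^ n := by
  have h1 : ω ^ 2 ^ M = ω := by
    rw [show 2 ^ M = 2 ^ M - 1 + 1 by have := Nat.one_le_two_pow (n := M); omega, pow_succ, h,
      one_mul]
  have h2 : ∀ b, ω ^ 2 ^ (M * b) = ω := fun b => by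
    induction b with
    | zero => simp
    | succ b ih => rw [mul_add, mul_one, pow_add, pow_mul, ih, h1]
  conv_rhs => rw [← Nat.div_add_mod n M, pow_add, pow_mul, h2]
  rw [ZMod.val_natCast]

theorem den {P : Id} {φ : dec P} (hP : Ov 2 P) (hφ : Fb 2 P φ) : ∀ U : Subgroup (dec P), IsOpen (U : Set (dec P)) → ∀ x,
    ∃ (k : ℕ) (i : dec P), Inert P i ∧ ∃ u ∈ U, x = u * φ ^ k * i := fun U hU x => by
  haveI := H443.galQb
  obtain ⟨t, ht, e⟩ := isOpen_induced_iff.1 hU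
  have h1 : (1 : GQ) ∈ t := by
    have : (1 : dec P) ∈ Subtype.val ⁻¹' t := by rw [e]; exact U.one_mem
    exact this
  obtain ⟨N, hN⟩ := ProfiniteGrp.exist_openNormalSubgroup_sub_open_nhds_of_one ht h1
  obtain ⟨k, i, u, hi, hu, e1⟩ := W.dec_gen hP.1 hP.2.1 hP.2.2 hφ x.2 N.toSubgroup N.isOpen'
  refine ⟨k, ⟨i, W.inP_le_dec hi⟩, hi, x * (⟨i, W.inP_le_dec hi⟩ : dec P)⁻¹ * (φ ^ k)⁻¹, ?_,
    by group⟩
  have : ((x * (⟨i, W.inP_le_dec hi⟩ : dec P)⁻¹ * (φ ^ k)⁻¹ : dec P) : GQ) = u := by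
    show (x : GQ) * i⁻¹ * ((φ : GQ) ^ k)⁻¹ = u
    rw [e1]; group
  rw [← SetLike.mem_coe, ← e]
  show _ ∈ t
  rw [this]
  exact hN hu

theorem pw {P : Id} : ∀ (x : dec P) (n : ℕ), ∃ k : ℕ, Odd k ∧
    ∀ ζ : Qb, ζ ^ 2 ^ n = 1 → (x : GQ) ζ = ζ ^ k := fun x n => by
  haveI : NeZero (2 ^ (n + 1)) := ⟨by positivity⟩
  obtain ⟨ζ, hζ⟩ := HasEnoughRootsOfUnity.exists_primitiveRoot Qb (2 ^ (n + 1))
  have h4 : ζ ^ 2 ^ n = -1 :=
    (hζ.pow (by positivity) (show 2 ^ (n + 1) = 2 ^ n * 2 from rfl)).eq_neg_one_of_two_right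
  obtain ⟨k, -, hk⟩ := hζ.eq_pow_of_pow_eq_one (ξ := (x : GQ) ζ)
    (by rw [← map_pow, hζ.pow_eq_one, map_one])
  refine ⟨k, Nat.not_even_iff_odd.1 fun hk2 => ?_, fun ξ hξ => ?_⟩
  · have := congrArg (· ^ 2 ^ n) hk
    beta_reduce at this
    rw [← map_pow, ← pow_mul, mul_comm, pow_mul, h4, hk2.neg_one_pow, map_neg, map_one] at this
    norm_num at this
  · obtain ⟨i, -, rfl⟩ := hζ.eq_pow_of_pow_eq_one (ξ := ξ) (by rw [pow_succ, pow_mul, hξ, one_pow])
    rw [map_pow, ← hk, ← pow_mul, ← pow_mul, mul_comm]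

theorem sq5 {P : Id} (hP : Ov 2 P) {s : Qb} (h5 : s ^ 2 = 5) {a : GQ → ZMod 2} (ha : Ku s a) :
    (∀ i, Inert P i → a i = 0) ∧ ∀ φ, Fb 2 P φ → a φ = 1 := by
  have two : (2 : 𝓞 Qb) ∈ P := by exact_mod_cast hP.2.2
  have one : (1 : 𝓞 Qb) ∉ P := (Ideal.ne_top_iff_one _).1 hP.2.1.ne_top
  let y : 𝓞 Qb := ⟨(1 + s) / 2, Polynomial.X ^ 2 - (Polynomial.X + 1), Polynomial.monic_X_pow_sub
    (by compute_degree!), by
      simp only [Polynomial.eval₂_sub, Polynomial.eval₂_add, Polynomial.eval₂_pow,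
        Polynomial.eval₂_X, Polynomial.eval₂_one]
      linear_combination h5 / 4⟩
  have ya : ∀ x : GQ, algebraMap (𝓞 Qb) Qb (x • y) = (1 + sg Qb (a x) * s) / 2 := fun x => by
    show x ((1 + s) / 2) = _
    rw [map_div₀, map_add, map_one, map_ofNat, ha]
  have yv : algebraMap (𝓞 Qb) Qb y = (1 + s) / 2 := rfl
  have inj := FaithfulSMul.algebraMap_injective (𝓞 Qb) Qb
  refine ⟨fun i hi => (z2 _).resolve_right fun h => ?_, fun φ hφ => (z2 _).resolve_left fun h => ?_⟩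
  · have e : (i • y - y) ^ 2 - 2 * 2 = 1 := inj (by
      simp only [map_sub, map_pow, map_mul, map_ofNat, map_one]
      rw [ya, yv, h, sg1]
      linear_combination h5)
    exact one (e ▸ P.sub_mem (P.pow_mem_of_mem (hi y) 2 two_pos) (P.mul_mem_left _ two))
  · have e : -(φ • y - y ^ 2) = 1 := inj (by
      simp only [map_sub, map_pow, map_neg, map_one]
      rw [ya, yv, h, sg0]
      linear_combination h5 / 4)
    exact one (e ▸ P.neg_mem (hφ y))

/-- the cocycles of the units `1 + t ω` -/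
theorem unit {P : Id} {φ : dec P} (hP : Ov 2 P) (hφ : Fb 2 P φ) {j : GG →* dec P}
    {ι : Qb →+* PadicAlgCl 2} (key : ∀ σ x, ι ((j σ : GQ) x) = σ (ι x))
    (mem : ∀ x : 𝓞 Qb, x ∈ P ↔ ‖ι x‖ < 1) {R : Type} [CommRing R] {m M : ℕ} {e lam : dec P →* R}
    (M0 : 0 < M) (h2' : (2 : R) ^ (m + 1) = 0) (hν : lam φ ^ M = 1) (ho : IsOpen {x | lam x = 1})
    (hl : IsLocallyConstant lam) (hu : ∀ i : dec P, Inert P i → lam i = 1)
    (he' : ∀ x : dec P, ∃ n : ℕ, e x = n ∧ ∀ ζ : Qb, ζ ^ 2 ^ (m + 1) = 1 →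
      (dec P).subtype x ζ = ζ ^ n) : (∀ x, ∃ n : ℕ, lam x = lam φ ^ n) ∧
    ∀ t : ℕ, t ≠ 0 → (t : 𝓞 Qb) ∈ P → ∃ (c : dec P → R) (S : Qb) (b : dec P → ZMod 2)
      (y1 y2 : ℤ_[2]), Coc (fun x => e x * lam x) c ∧ S ≠ 0 ∧
      (∀ x : dec P, (x : GQ) S = sg Qb (b x) * S) ∧
      (∀ x, c x - ((b x).val : R) ∈ Ideal.span {2, lam φ - 1}) ∧
      ι S ^ 2 = algebraMap ℚ_[2] Om (1 + t * (1 + 2 * y1) + t ^ 2 * y2) := by
  haveI := H443.galQb
  have pr := hP.2.1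
  have two : (2 : 𝓞 Qb) ∈ P := by exact_mod_cast hP.2.2
  have one : (1 : 𝓞 Qb) ∉ P := (Ideal.ne_top_iff_one _).1 pr.ne_top
  have sc : Continuous (dec P).subtype := continuous_subtype_val
  let ο : 𝓞 Qb →+* Om := ι.comp (algebraMap (𝓞 Qb) Qb)
  have mem' : ∀ x : 𝓞 Qb, x ∈ P ↔ ‖(ο x : PadicAlgCl 2)‖ < 1 := mem
  haveI : NeZero M := ⟨M0.ne'⟩
  have od : ((2 ^ M - 1 : ℕ) : 𝓞 Qb) ∉ P := fun h => one (by
    rw [Nat.cast_sub Nat.one_le_two_pow] at h
    simpa using P.sub_mem (P.pow_mem_of_mem two M M0) h)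
  haveI : NeZero (2 ^ M - 1) := ⟨fun h => od (by rw [h]; simp)⟩
  obtain ⟨ζ, hζ⟩ := HasEnoughRootsOfUnity.exists_primitiveRoot Qb (2 ^ M - 1)
  obtain ⟨ω, ω1, ω2⟩ := ex_om (hζ.toInteger_isPrimitiveRoot) od
  have sp : ∀ (x : GQ) (n : ℕ), (x • ω) ^ n = x • ω ^ n := fun x n => (smul_pow' x ω n).symm
  have ω3 : (φ : GQ) • ω = ω ^ 2 := root_eq pr od (by rw [sp, ω1, smul_one])
    (by rw [← pow_mul, mul_comm, pow_mul, ω1, one_pow]) (hφ ω)
  have ω4 : ∀ k : ℕ, (φ : GQ) ^ k • ω = ω ^ 2 ^ k := fun k => by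
    induction k with
    | zero => simp
    | succ k ih => rw [pow_succ', mul_smul, ih, ← sp, ω3, ← pow_mul, pow_succ']
  let w : ZMod M → 𝓞 Qb := fun j => ω ^ 2 ^ j.val
  have hw : ∀ x : dec P, ∃ n : ℕ, lam x = lam φ ^ n ∧ ∀ j, (x : GQ) • w j = w (j + n) := fun x => by
    obtain ⟨k, i, hi, u, hu', rfl⟩ := den hP hφ (lam.toHomUnits.ker ⊓
      (MulAction.stabilizer GQ (ω : Qb)).comap (dec P).subtype) (IsOpen.inter (by
        convert ho using 1
        exact Set.ext fun x => Units.ext_iff)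
      ((stabilizer_isOpen_of_isIntegral (K := ℚ) (ω : Qb)).preimage sc)) x
    have u1 : lam u = 1 := Units.ext_iff.1 hu'.1
    have u2 : (u : GQ) • ω = ω := RingOfIntegers.ext hu'.2
    have i1 : (i : GQ) • ω = ω := root_eq pr od (by rw [sp, ω1, smul_one]) ω1 (hi ω)
    refine ⟨k, by rw [map_mul, map_mul, map_pow, u1, hu i hi, one_mul, mul_one], fun j => ?_⟩
    show ((u : GQ) * (φ : GQ) ^ k * i) • ω ^ _ = ω ^ _
    rw [← sp, mul_smul, mul_smul, i1, ω4, ← sp, u2, ← pow_mul, ← pow_add, ← per ω1, Nat.cast_add,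
      ZMod.natCast_zmod_val, add_comm]
  have nz : ∀ z : 𝓞 Qb, ‖(ο z : PadicAlgCl 2)‖ ≤ 1 := fun z => not_lt.1 fun h => by
    obtain ⟨n, hn⟩ := pow_unbounded_of_one_lt (2 : ℝ) h
    have := (mem' _).1 (P.mul_mem_right (z ^ n) hP.2.2)
    rw [map_mul, map_pow, map_natCast, norm_mul, norm_pow, Loc2.norm_p] at this
    norm_num at this
    linarith
  have fx : ∀ z : 𝓞 Qb, (∀ x : dec P, (x : GQ) • z = z) → ∃ c : ℤ_[2],
      algebraMap ℚ_[2] Om c = ο z := fun z hz => by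
    obtain ⟨c, hc⟩ := (InfiniteGalois.mem_range_algebraMap_iff_fixed (k := ℚ_[2]) (K := Om)
      (ο z)).2 fun σ => (key σ z).symm.trans (congrArg ο (hz (j σ)))
    exact ⟨⟨c, by rw [← PadicAlgCl.norm_extends 2 c, hc]; exact nz z⟩, hc⟩
  have T1 : ∀ x : dec P, (x : GQ) • ∑ j, w j = ∑ j, w j := fun x => by
    obtain ⟨n, -, hn⟩ := hw x
    rw [Finset.smul_sum]
    simp only [hn]
    exact Equiv.sum_comp (Equiv.addRight (n : ZMod M)) w
  obtain ⟨T, hT⟩ := fx _ T1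
  obtain ⟨y1, hy1⟩ : ((2 : ℕ) : ℤ_[2]) ∣ T - 1 := by
    have a1 := hφ (∑ j, w j)
    rw [T1, show ∑ j, w j - (∑ j, w j) ^ 2 = -((∑ j, w j) * (∑ j, w j - 1)) by ring,
      neg_mem_iff] at a1
    have a2 := (mem' _).1 ((pr.mem_or_mem a1).resolve_left ω2)
    rw [map_sub, map_one, ← hT, ← map_one (algebraMap ℚ_[2] Om), ← map_sub] at a2
    rw [← PadicInt.norm_lt_one_iff_dvd, PadicInt.norm_def, ← PadicAlgCl.norm_extends 2]
    exact a2
  refine ⟨fun x => (hw x).imp fun _ h => h.1, fun t t0 ht => ?_⟩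
  have v0 : ∀ j, ((1 + t * w j : 𝓞 Qb) : Qb) ≠ 0 := fun j h => one (by
    have h' : 1 + t * w j = 0 := RingOfIntegers.ext h
    rw [eq_neg_of_add_eq_zero_left h']
    exact P.neg_mem (P.mul_mem_right _ ht))
  have sv : ∀ (x : GQ) z, x • (1 + t * z : 𝓞 Qb) = 1 + t * x • z := fun x z =>
    RingOfIntegers.ext (by
      show x (algebraMap (𝓞 Qb) Qb (1 + t * z)) = algebraMap (𝓞 Qb) Qb (1 + t * x • z)
      simp only [map_add, map_mul, map_one, map_natCast]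
      rfl)
  obtain ⟨c, S, b, c1, c2, c3, c4⟩ := orb (dec P).subtype sc h2' hν e lam hl he'
    (fun j => ((1 + t * w j : 𝓞 Qb) : Qb)) v0 fun x => (hw x).imp fun n hn =>
      ⟨hn.1, fun j => by rw [← hn.2, ← sv]; rfl⟩
  obtain ⟨z, hz⟩ := prod_exp (t : 𝓞 Qb) w Finset.univ
  obtain ⟨y2, hy2⟩ := fx z fun x => by
    obtain ⟨n, -, hn⟩ := hw x
    have a1 : (x : GQ) • ∏ j, (1 + t * w j) = ∏ j, (1 + t * w j) := by
      rw [Finset.smul_prod']
      simp only [sv, hn]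
      exact Equiv.prod_comp (Equiv.addRight (n : ZMod M)) fun j => 1 + t * w j
    have a2 : (x : GQ) • (t : 𝓞 Qb) = t := RingOfIntegers.ext (map_natCast (x : GQ) t)
    rw [hz, smul_add, sv, T1, smul_mul', smul_pow', a2, add_right_inj] at a1
    exact mul_left_cancel₀ (pow_ne_zero 2 (Nat.cast_ne_zero.2 t0)) a1
  refine ⟨c, S, b, y1, y2, c1, fun h => ?_, c3, c4, ?_⟩
  · rw [h] at c2
    exact Finset.prod_ne_zero_iff.2 (fun j _ => v0 j) (c2.symm.trans (by norm_num))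
  · have a1 : (1 : ℚ_[2]) + 2 * y1 = T := by
      have : T = 1 + 2 * y1 := by
        rw [Nat.cast_ofNat] at hy1
        linear_combination hy1
      rw [this]
      rfl
    have a2 : ι (∏ j, ((1 + t * w j : 𝓞 Qb) : Qb)) = ο (∏ j, (1 + t * w j)) :=
      congrArg ι (map_prod (algebraMap (𝓞 Qb) Qb) _ _).symm
    rw [← map_pow, c2, a2, hz, a1]
    simp only [map_add, map_mul, map_pow, map_natCast, map_one, hT, hy2]

end Km

open Km

theorem ar : AR := by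
  intro P φ hP hφ
  haveI : Fact (Nat.Prime 2) := ⟨Nat.prime_two⟩
  haveI := H443.galQb
  obtain ⟨j, jc, js, ⟨ι, key, mem⟩, -⟩ := RT.Tr.exists_j 2 hP
  have pr := hP.2.1
  have two : (2 : 𝓞 Qb) ∈ P := by exact_mod_cast hP.2.2
  have one : (1 : 𝓞 Qb) ∉ P := (Ideal.ne_top_iff_one _).1 pr.ne_top
  have sc : Continuous (dec P).subtype := continuous_subtype_val
  choose s hs using fun i : Fin 3 =>
    IsAlgClosed.exists_pow_nat_eq ((![-1, 2, 5] i : ℤ) : Qb) two_pos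
  have s0 : ∀ i, s i ≠ 0 := fun i h => by
    have := hs i
    rw [h] at this
    fin_cases i <;> norm_num at this
  choose A hA using fun (i : Fin 3) (x : GQ) =>
    pm (s := x (s i)) (t := s i) (by rw [← map_pow, hs, map_intCast])
  have isg : ∀ t, ι (sg Qb t) = sg Om t := fun t => by rcases z2 t with rfl | rfl <;> simp
  have up : ∀ {S : Qb} {b : dec P → ZMod 2}, (∀ x : dec P, (x : GQ) S = sg Qb (b x) * S) →
      Ku (k := ℚ_[2]) (L := Om) (ι S) fun σ => b (j σ) := fun hb σ => by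
    have := key σ ‹_›
    rw [hb, map_mul, isg] at this
    exact this.symm
  have ku := fun i => up (b := fun x => A i x) fun x => hA i x
  have sq : ∀ i, ι (s i) ^ 2 = ((![-1, 2, 5] i : ℤ) : Om) := fun i => by
    rw [← map_pow, hs, map_intCast]
  have q0 : ι (s 0) ^ 2 = -1 := by simpa using sq 0
  have q1 : ι (s 1) ^ 2 = 2 := by simpa using sq 1
  have q2 : ι (s 2) ^ 2 = 5 := by simpa using sq 2
  obtain ⟨⟨g, hg⟩, gen, ncup⟩ := loc (fun i => ι (s i)) _ q0 q1 q2 ku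
  have hom : ∀ i, Coc (fun _ => 1) fun x : dec P => A i x := fun i =>
    ⟨(Ku.coc (s0 i) (hA i)).1.comp_continuous sc, fun x y => (Ku.coc (s0 i) (hA i)).2 x y⟩
  obtain ⟨unr, frb⟩ := sq5 hP (s := s 2) (by simpa using hs 2) (hA 2)
  have frb := frb φ hφ
  have den := den hP hφ
  have idb : ∀ {S : Qb} {b a : dec P → ZMod 2} {t : Om} (w : ℚ_[2]), S ≠ 0 →
      (∀ x : dec P, (x : GQ) S = sg Qb (b x) * S) → Ku (k := ℚ_[2]) t (fun σ => a (j σ)) →
      ι S ^ 2 = (algebraMap ℚ_[2] Om w * t) ^ 2 → b = a := fun w h0 hb ha e => funext fun x => by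
    obtain ⟨σ, rfl⟩ := js x
    exact congrFun ((up hb).uniq ((map_ne_zero ι).2 h0) (ha.sq w e)) σ
  refine ⟨fun i => j (g i), fun i x => A i x, hom, hg, fun b hb b0 x => ?_, fun h => ncup ?_,
    fun i => unr i, frb, ?_, den, pw, fun n => ?_, ?_⟩
  · obtain ⟨m, hm⟩ := gen (fun σ => b (j σ)) ⟨hb.1.comp_continuous jc, fun σ τ => by
      beta_reduce; rw [map_mul, hb.2]⟩
    have m0 : ∀ i, m i = 0 := fun i => by
      have := congrFun hm (g i)
      simp only [b0, hg] at this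
      simpa using this.symm
    obtain ⟨σ, rfl⟩ := js x
    simpa [m0] using congrFun hm σ
  · obtain ⟨z, z1, z2⟩ := h
    exact ⟨fun σ => z (j σ), z1.comp_continuous jc, fun σ τ => by
      beta_reduce; rw [map_mul, z2]⟩
  · obtain ⟨i, hi, h0⟩ : ∃ i : dec P, Inert P i ∧ A 0 i = 1 := by
      by_contra hn
      push Not at hn
      have am : ∀ i (x y : dec P), A i (x * y : dec P) = A i x + A i y := fun i x y => by
        simpa using (hom i).2 x y
      let b : dec P →* Multiplicative (ZMod 2) := MonoidHom.mk'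
        (fun x => Multiplicative.ofAdd (A 0 x + A 0 φ * A 2 x)) fun x y => by
          rw [← ofAdd_add, am, am]; congr 1; ring
      have hb : IsLocallyConstant b := (hom 0).1.comp₂ (hom 2).1 fun u v =>
        Multiplicative.ofAdd (u + A 0 φ * v)
      obtain ⟨k, i, hi, u, hu, e⟩ := den b.ker (hb.isOpen_fiber 1) (j (g 0))
      have b1 : b φ = 1 := by
        show Multiplicative.ofAdd (A 0 φ + A 0 φ * A 2 φ) = 1
        rw [frb, mul_one, CharTwo.add_self_eq_zero]; rfl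
      have b2 : b i = 1 := by
        show Multiplicative.ofAdd (A 0 i + A 0 φ * A 2 i) = 1
        rw [unr i hi, (z2 _).resolve_right (hn i hi)]; simp
      have b3 : b (j (g 0)) = 1 := by
        rw [e, map_mul, map_mul, map_pow, b1, b2, MonoidHom.mem_ker.1 hu]; simp
      have b4 : A 0 (j (g 0)) + A 0 φ * A 2 (j (g 0)) = 0 := b3
      rw [hg, hg] at b4
      simp at b4
    refine ⟨i, hi, fun ζ hζ => ?_⟩
    have h1 : s 0 ^ 2 = -1 := by simpa using hs 0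
    have h2 := hA 0 i
    rw [h0, sg1] at h2
    have h3 : (ζ - 1) * (ζ + 1) * ((ζ - s 0) * (ζ + s 0)) = 0 := by
      linear_combination hζ - (ζ ^ 2 - 1) * h1
    rcases mul_eq_zero.1 h3 with h | h <;> rcases mul_eq_zero.1 h with h | h
    · rw [sub_eq_zero.1 h]; simp
    · rw [eq_neg_of_add_eq_zero_left h]; norm_num
    · rw [sub_eq_zero.1 h, h2]; linear_combination (-s 0) * h1
    · rw [eq_neg_of_add_eq_zero_left h, map_neg, h2]; linear_combination (s 0) * h1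
  · haveI : NeZero (2 ^ n) := ⟨by positivity⟩
    obtain ⟨ζ, hζ⟩ := HasEnoughRootsOfUnity.exists_primitiveRoot Qb (2 ^ n)
    convert ((lc (k := ℚ) ζ).comp_continuous sc).isOpen_fiber ζ using 3 with x
    refine ⟨fun h => h ζ hζ.pow_eq_one, fun h ξ hξ => ?_⟩
    obtain ⟨i, -, rfl⟩ := hζ.eq_pow_of_pow_eq_one hξ
    rw [map_pow]
    exact congrArg (· ^ i) h
  intro R _ m M e lam i M0 h2 hν he ho hu h1
  have h2' : (2 : R) ^ (m + 1) = 0 := by rw [pow_succ, h2, zero_mul]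
  have hl : IsLocallyConstant lam := lc_of ho (map_one lam) fun x y hy => by
    rw [map_mul, show lam y = 1 from hy, mul_one]
  have he' : ∀ x : dec P, ∃ n : ℕ, e x = n ∧ ∀ ζ : Qb, ζ ^ 2 ^ (m + 1) = 1 →
      (dec P).subtype x ζ = ζ ^ n := fun x => by
    obtain ⟨k, -, hk⟩ := pw x (m + 1)
    have := he x _ k hk
    rw [h2', Ideal.span_singleton_zero, Ideal.mem_bot, sub_eq_zero] at this
    exact ⟨k, this, hk⟩
  obtain ⟨hw, main⟩ := unit hP hφ key mem M0 h2' hν ho hl hu he'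
  have five : ∃ c : dec P → R, Coc (fun x => e x * lam x) c ∧
      ∀ x, c x - ((A 2 x).val : R) ∈ Ideal.span {2, lam φ - 1} := by
    obtain ⟨c, S, b, y1, y2, c1, c2, c3, c4, c5⟩ := main 4 (by norm_num) (by
      simpa [show (2 : 𝓞 Qb) * 2 = 4 by norm_num] using P.mul_mem_left 2 two)
    obtain ⟨w, hw⟩ := cls5 (y1 + 2 * y2)
    rw [show ((y1 + 2 * y2 : ℤ_[2]) : ℚ_[2]) = y1 + 2 * y2 from rfl] at hw
    rw [idb (a := fun x => A 2 x) w c2 c3 (ku 2) (by
      rw [c5, mul_pow, q2, ← map_pow, ← map_ofNat (algebraMap ℚ_[2] Om) 5, ← map_mul]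
      congr 1
      push_cast at hw ⊢
      linear_combination hw)] at c4
    exact ⟨c, c1, c4⟩
  fin_cases i
  · obtain ⟨c, S, b, y1, y2, c1, c2, c3, c4, c5⟩ := main 2 (by norm_num) (by exact_mod_cast two)
    obtain ⟨w, hw | hw⟩ := cls3 (y1 + y2)
    · rw [idb (a := fun x => A 0 x) w c2 c3 (ku 0) (by
        rw [c5, mul_pow, q0, ← map_pow, ← map_one (algebraMap ℚ_[2] Om), ← map_neg, ← map_mul]
        congr 1
        push_cast at hw ⊢
        linear_combination hw)] at c4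
      exact ⟨c, c1, c4⟩
    · rw [idb (a := fun x => A 0 x + A 2 x) w c2 c3 ((ku 0).mul (ku 2)) (by
        rw [c5, mul_pow, mul_pow, q0, q2, ← map_pow, neg_one_mul,
          ← map_ofNat (algebraMap ℚ_[2] Om) 5, ← map_neg, ← map_mul]
        congr 1
        push_cast at hw ⊢
        linear_combination hw)] at c4
      obtain ⟨d, d1, d2⟩ := five
      refine ⟨c + d, ⟨c1.1.add d1.1, fun x y => by
        simp only [Pi.add_apply, c1.2, d1.2]; ring⟩, fun x => ?_⟩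
      have t2 : (2 : R) ∈ Ideal.span {2, lam φ - 1} := Ideal.subset_span (by simp)
      have a1 := add_mem (c4 x) (d2 x)
      show c x + d x - ((A 0 x).val : R) ∈ _
      have v1 : (1 : ZMod 2).val = 1 := rfl
      have v2 : (1 + 1 : ZMod 2).val = 0 := rfl
      rcases z2 (A 0 x) with p | p <;> rcases z2 (A 2 x) with q | q <;>
        simp only [p, q, add_zero, zero_add, v1, v2, ZMod.val_zero, Nat.cast_zero, Nat.cast_one,
          sub_zero] at a1 ⊢
      · exact a1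
      · convert add_mem a1 t2 using 1; ring
      · convert a1 using 1; ring
      · convert a1 using 1; ring
  · obtain ⟨c, S, b, c1, c2, c3, c4⟩ := orb (M := 1) (dec P).subtype sc h2' (ν := lam φ)
      (by rw [h1 rfl, one_pow]) e lam hl he' (fun _ => 2) (fun _ => two_ne_zero) fun x =>
        (hw x).imp fun n hn => ⟨hn, fun _ => map_ofNat _ 2⟩
    have c5 : S ^ 2 = 2 := by simpa using c2
    rw [idb (a := fun x => A 1 x) 1 (fun h => by rw [h] at c5; norm_num at c5) c3 (ku 1) (by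
      rw [map_one, one_mul, q1, ← map_pow, c5, map_ofNat])] at c4
    exact ⟨c, c1, c4⟩
  · exact five

end Vale.Agent.P022K.O2
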