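import Vale.Agent.P022K.O2.St
import Vale.Agent.P022K.O2.Dvr1

/-!
# P022K, block O2: assembly
-/

set_option linter.all false

noncomputable section

namespace Vale.Agent.P022K.O2

open IsLocalRing MvPowerSeries NumberField Matrix
open Vale.Agent.P022
open Vale.Agent.P022D.L2b (M2)
open Vale.Agent.P022D.Core (PS)
open Vale.Agent.P022K.PL (Cf)
open Vale.Agent.P027M.S (Inert)
open Vale.Agent.P022D.W (dec)
open Vale.Agent.P022K.GW (Id)
open Vale.Agent.P022K.RT (Pt)

theorem dvr : DVR := by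
  intro O τ Ω _ _ _ _ _ _ _ _ _ x hx
  obtain ⟨V, _, _, _, _, _, _, ι, y, h1, h2, -, -, -, h3⟩ :=
    D1.ex_dvr x hx Set.finite_empty fun _ h => h.elim
  exact ⟨V, _, _, ‹_›, ‹_›, ‹_›, _, ι, y, h1, h2, h3⟩

/-- a common left kernel descends -/
theorem ker_desc {V Ω J : Type} [CommRing V] [Nontrivial V] [Field Ω] (ι : V →+* Ω)
    (hι : Function.Injective ι) (M : J → M2 V) {w : Fin 2 → Ω} (hw : w ≠ 0)
    (h : ∀ j, w ᵥ* (M j).map ι = 0) : ∃ v : Fin 2 → V, v ≠ 0 ∧ ∀ j, v ᵥ* M j = 0 := by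
  by_cases h0 : ∀ j k, M j 0 k = 0 ∧ M j 1 k = 0
  · refine ⟨1, one_ne_zero, fun j => funext fun k => ?_⟩
    simp [vecMul, dotProduct, Fin.sum_univ_two, h0 j k]
  push Not at h0
  obtain ⟨j, k, hjk⟩ := h0
  have e : ∀ j k, w 0 * ι (M j 0 k) + w 1 * ι (M j 1 k) = 0 := fun j k => by
    simpa [vecMul, dotProduct, Fin.sum_univ_two] using congrFun (h j) k
  refine ⟨![M j 1 k, -M j 0 k], fun h1 => ?_, fun i => funext fun l => hι ?_⟩
  · have a1 : M j 1 k = 0 := congrFun h1 0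
    have a2 : -M j 0 k = 0 := congrFun h1 1
    exact hjk (neg_eq_zero.1 a2) a1
  · have e1 := e j k
    have e2 := e i l
    have e3 : ι ((![M j 1 k, -M j 0 k] ᵥ* M i) l) =
        ι (M j 1 k) * ι (M i 0 l) - ι (M j 0 k) * ι (M i 1 l) := by
      simp [vecMul, dotProduct, Fin.sum_univ_two, sub_eq_add_neg]
    rw [e3, Pi.zero_apply, map_zero]
    by_contra h2
    refine hw (funext fun t => ?_)
    fin_cases t
    · refine mul_right_cancel₀ h2 ?_
      show w 0 * _ = 0 * _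
      linear_combination ι (M j 1 k) * e2 - ι (M i 1 l) * e1
    · refine mul_right_cancel₀ h2 ?_
      show w 1 * _ = 0 * _
      linear_combination ι (M i 0 l) * e1 - ι (M j 0 k) * e2

theorem Ord.desc {V Ω : Type} [CommRing V] [Nontrivial V] [Field Ω] (ι : V →+* Ω)
    (hι : Function.Injective ι) {P : Id} {φ : dec P} {ρ : dec P → M2 V} {w : Fin 2 → Ω} {a : V}
    (hw : w ≠ 0) (ha : ι a ^ 2 ≠ 1) (h1 : ∀ i : dec P, Inert P i → w ᵥ* (ρ i).map ι = w)
    (h2 : w ᵥ* (ρ φ).map ι = ι a • w) : Ord P φ ρ := by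
  obtain ⟨v, hv, h⟩ := ker_desc ι hι (J := Option {i : dec P // Inert P i})
    (fun j => j.elim (ρ φ - a • 1) fun i => ρ i - 1) hw (by
      rintro (_ | i)
      · have e : (ρ φ - a • 1).map ι = (ρ φ).map ι - ι a • 1 := by
          ext s t
          simp [one_apply, apply_ite ι]
        show w ᵥ* (ρ φ - a • 1).map ι = 0
        rw [e, vecMul_sub, h2, vecMul_smul, vecMul_one, sub_self]
      · have e : (ρ i - 1).map ι = (ρ i).map ι - 1 := by
          ext s t
          simp [one_apply, apply_ite ι]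
        show w ᵥ* (ρ i - 1).map ι = 0
        rw [e, vecMul_sub, h1 i i.2, vecMul_one, sub_self])
  refine ⟨v, a, hv, fun e => ha (by rw [← map_pow, e, map_one]), fun i hi => ?_, ?_⟩
  · have := h (some ⟨i, hi⟩)
    rwa [Option.elim_some, vecMul_sub, vecMul_one, sub_eq_zero] at this
  · have := h none
    rwa [Option.elim_none, vecMul_sub, vecMul_smul, vecMul_one, sub_eq_zero] at this

theorem eig_int {O Ω : Type} [CommRing O] [Field Ω] [Algebra O Ω] {M : M2 Ω}
    (hM : ∀ i j, IsIntegral O (M i j)) {w : Fin 2 → Ω} {α : Ω} (hw : w ≠ 0)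
    (h : w ᵥ* M = α • w) : IsIntegral O α := by
  have e : ∀ k, w 0 * M 0 k + w 1 * M 1 k = α * w k := fun k => by
    simpa [vecMul, dotProduct, Fin.sum_univ_two] using congrFun h k
  have e0 := e 0
  have e1 := e 1
  have h1 : α ^ 2 - (M 0 0 + M 1 1) * α + (M 0 0 * M 1 1 - M 0 1 * M 1 0) = 0 := by
    by_contra h2
    refine hw (funext fun t => ?_)
    fin_cases t
    · refine mul_right_cancel₀ h2 ?_
      show w 0 * _ = 0 * _
      linear_combination (M 1 1 - α) * e0 - M 1 0 * e1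
    · refine mul_right_cancel₀ h2 ?_
      show w 1 * _ = 0 * _
      linear_combination (M 0 0 - α) * e1 - M 0 1 * e0
  let A := integralClosure O Ω
  let t : A := ⟨_, (hM 0 0).add (hM 1 1)⟩
  let d : A := ⟨_, ((hM 0 0).mul (hM 1 1)).sub ((hM 0 1).mul (hM 1 0))⟩
  refine isIntegral_trans (A := A) α
    ⟨Polynomial.X ^ 2 - Polynomial.C t * Polynomial.X + Polynomial.C d, by monicity!, ?_⟩
  simp only [Polynomial.eval₂_add, Polynomial.eval₂_sub, Polynomial.eval₂_mul, Polynomial.eval₂_C,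
    Polynomial.eval₂_X, Polynomial.eval₂_X_pow]
  exact h1

theorem AllD.allF {O τ : Type} [CommRing O] [IsDomain O] [IsDiscreteValuationRing O] [Cf O]
    [CharZero O] [Fintype τ] {P : Id} {φ : dec P} {I J : Ideal (PS O τ)}
    {f : dec P → M2 (PS O τ)} (h : AllD P φ I J f) : AllF P φ I J f := by
  rintro Ω _ _ _ x hx ⟨w, α, hw, hα, h1, h2⟩ u hu
  obtain ⟨V, _, _, _, _, _, _, ι, y, hι, hy, hS, -, -, hm⟩ :=
    D1.ex_dvr x hx.int (Set.finite_singleton α) fun s hs =>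
      hs ▸ eig_int (fun i j => hx.int (f φ i j)) hw h2
  obtain ⟨a, rfl⟩ := hS (Set.mem_singleton α)
  have e : ∀ z, ((f z).map y).map (ι : V →+* Ω) = (f z).map x := fun z => by
    ext i j
    exact hy _
  rw [← hy, h V y hm (fun v hv => hι (by rw [hy, hx.ker v hv, map_zero]))
    (Ord.desc (ι : V →+* Ω) hι hw hα (fun i hi => by rw [e]; exact h1 i hi) (by rw [e]; exact h2))
    u hu, map_zero]

theorem Ord.conj {A : Type} [CommRing A] {P : Id} {φ : dec P} {ρ : dec P → M2 A} {H H' : M2 A}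
    (hH : H * H' = 1) (h : Ord P φ ρ) : Ord P φ fun y => H' * ρ y * H := by
  obtain ⟨w, α, hw, hα, h1, h2⟩ := h
  have e : ∀ y, (w ᵥ* H) ᵥ* (H' * ρ y * H) = (w ᵥ* ρ y) ᵥ* H := fun y => by
    rw [vecMul_vecMul, vecMul_vecMul, ← Matrix.mul_assoc, ← Matrix.mul_assoc, hH, Matrix.one_mul]
  refine ⟨w ᵥ* H, α, fun h0 => hw ?_, hα, fun i hi => by rw [e, h1 i hi], by
    rw [e, h2, smul_vecMul]⟩
  rw [← vecMul_one w, ← hH, ← vecMul_vecMul, h0, zero_vecMul]

/-- **ORD2** from the rows -/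
theorem ord2_of (hA : AR) (hN : NRM) (hF : FAM) : ORD2 := by
  intro F O τ _ _ _ _ _ _ _ _ _ _ P φ r s d g p q I f hP hφ hs hd hU hi ht
  obtain ⟨g₀, a, ha⟩ := hA P φ hP hφ
  obtain ⟨h2, c, H, H', L, k, hc, hH, hn⟩ := hN F O τ P φ g₀ a r s d g p q I f ha hs hd hU hi ht
  obtain ⟨J, hJ, hI, hD⟩ := hF O τ P φ g₀ a c d g L k I _ hP hφ ha h2 hd hc hn
  have hD' : AllD P φ I J f := fun V _ _ _ _ _ _ x hm hx ho => by
    refine hD V x hm hx ?_
    have e : ∀ M : M2 O, (M.map C).map x = M.map (algebraMap O V) := fun M => by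
      ext i j
      exact x.commutes _
    have := ho.conj (H := H.map (algebraMap O V)) (H' := H'.map (algebraMap O V))
      (by rw [← Matrix.map_mul, hH, Matrix.map_one _ (map_zero _) (map_one _)])
    simpa only [Matrix.map_mul, e] using this
  exact ⟨J, hJ, hI, hD', hD'.allF⟩

theorem cyc_of {A : Type} [CommRing A] (ι : ℤ_[2] →+* A) (P : Id) :
    Cyc P fun x => ι (cyclotomicCharacter Qb 2 (x : GQ).toRingEquiv : ℤ_[2]ˣ) := by
  intro x n k h
  haveI : NeZero (2 ^ n) := ⟨by positivity⟩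
  obtain ⟨ζ, hζ⟩ := HasEnoughRootsOfUnity.exists_primitiveRoot Qb (2 ^ n)
  have h1 := cyclotomicCharacter.spec 2 (x : GQ).toRingEquiv ζ hζ.pow_eq_one
  have h2 : ζ ^ k = _ := (h ζ hζ.pow_eq_one).symm.trans h1
  have h3 : ((cyclotomicCharacter Qb 2 (x : GQ).toRingEquiv : ℤ_[2]ˣ) : ℤ_[2]) - k ∈
      RingHom.ker (PadicInt.toZModPow n) := by
    rw [RingHom.mem_ker, map_sub, map_natCast, sub_eq_zero, ← ZMod.natCast_zmod_val
      (PadicInt.toZModPow n _), ZMod.natCast_eq_natCast_iff]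
    have h4 := ((hζ.isOfFinOrder (NeZero.ne _)).pow_eq_pow_iff_modEq.1 h2).symm
    rwa [← hζ.eq_orderOf] at h4
  rw [PadicInt.ker_toZModPow] at h3
  obtain ⟨w, hw⟩ := Ideal.mem_span_singleton'.1 h3
  refine Ideal.mem_span_singleton'.2 ⟨ι w, ?_⟩
  have := congrArg ι hw
  simpa only [map_mul, map_pow, map_sub, map_natCast, Nat.cast_ofNat, map_ofNat] using this

end Vale.Agent.P022K.O2
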