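import Vale.Agent.P022K.O2.St
import Vale.Agent.P022K.RT.Lu

/-!
# P022K, block O2: the normal form (row NRM)
-/

set_option linter.all false

noncomputable section

namespace Vale.Agent.P022K.O2

open IsLocalRing MvPowerSeries NumberField Matrix
open Vale.Agent.P022
open Vale.Agent.P022D.L2b (M2)
open Vale.Agent.P022D.Core (PS)
open Vale.Agent.P022D.PA (Base)
open Vale.Agent.P022K.PL (Cf)
open Vale.Agent.P027M.S (Inert)
open Vale.Agent.P022D.W (dec)
open Vale.Agent.P022K.GW (Id)
open Vale.Agent.P022K.RT (Cg Uni LiftC cg_iff luc)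

namespace Nr

theorem cg_ker {A B : Type} [CommRing A] [CommRing B] {I : Ideal A} (π : A →+* B)
    (h : ∀ u, π u = 0 ↔ u ∈ I) {a b : M2 A} : Cg I a b ↔ a.map π = b.map π :=
  ⟨fun k => Matrix.ext fun i j => sub_eq_zero.1 ((map_sub π _ _).symm.trans ((h _).2 (k i j))),
    fun k i j => (h _).1 (by rw [map_sub]; exact sub_eq_zero.2 (congrFun (congrFun k i) j))⟩

theorem cg_conj {A : Type} [CommRing A] {I : Ideal A} {a b : M2 A} (h : Cg I a b) (x y : M2 A) :
    Cg I (x * a * y) (x * b * y) := by
  rw [cg_iff] at h ⊢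
  simp only [Matrix.map_mul, h]

theorem cg_conj_one {A : Type} [CommRing A] {I : Ideal A} {a x y : M2 A} (e : y * x = 1) :
    Cg I (x * a * y) 1 ↔ Cg I a 1 := by
  refine ⟨fun h => ?_, fun h => ?_⟩
  · have := cg_conj h y x
    rwa [mul_one, e, ← mul_assoc, ← mul_assoc, e, one_mul, mul_assoc, e, mul_one] at this
  · have := cg_conj h x y
    rwa [mul_one, mul_eq_one_comm.1 e] at this

theorem map_inv {A B : Type} [CommRing A] [CommRing B] (π : A →+* B) {x y : M2 A} (e : x * y = 1) :
    x.map π * y.map π = 1 := by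
  rw [← Matrix.map_mul, e, Matrix.map_one _ (map_zero _) (map_one _)]

/-- unipotent matrices -/
theorem uni {F : Type} [Field F] [CharP F 2] {γ : M2 F} (h1 : γ.trace = 0) (h2 : γ.det = 1) :
    ∃ (c : ℕ) (B : M2 F), (c = 0 ∨ c = 1) ∧ B.det ≠ 0 ∧ γ * B = B * !![1, (c : F); 0, 1] := by
  have two : (2 : F) = 0 := by exact_mod_cast CharP.cast_eq_zero F 2
  rw [trace_fin_two] at h1
  rw [det_fin_two] at h2
  by_cases k : γ 1 0 = 0
  · have a : γ 0 0 = 1 := by
      refine sub_eq_zero.1 (pow_eq_zero_iff two_ne_zero |>.1 ?_)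
      linear_combination γ 0 0 * h1 - h2 - γ 0 1 * k - γ 0 0 * two
    have b : γ 1 1 = 1 := by linear_combination h1 - a - two
    by_cases k' : γ 0 1 = 0
    · refine ⟨0, 1, .inl rfl, by simp, ?_⟩
      ext i j
      fin_cases i <;> fin_cases j <;> simp [a, b, k, k']
    · refine ⟨1, !![γ 0 1, 0; 0, 1], .inr rfl, by simpa using k', ?_⟩
      ext i j
      fin_cases i <;> fin_cases j <;> simp [a, b, k, Matrix.mul_apply, Fin.sum_univ_two]
  · refine ⟨1, !![γ 0 0 - 1, 1; γ 1 0, 0], .inr rfl, by simpa [det_fin_two] using k, ?_⟩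
    ext i j
    fin_cases i <;> fin_cases j <;> simp [Matrix.mul_apply, Fin.sum_univ_two]
    · linear_combination γ 0 0 * h1 - h2 - γ 0 0 * two
    · linear_combination γ 1 0 * h1 - γ 1 0 * two

theorem up_pow {F : Type} [Field F] [CharP F 2] (c : F) (k : ℕ) :
    !![1, c; 0, 1] ^ k = !![1, c * (((k : ZMod 2).val : ℕ) : F); 0, 1] := by
  rw [ZMod.val_natCast, ← CharP.cast_eq_mod F 2 k]
  induction k with
  | zero => simp [Matrix.one_fin_two]
  | succ k ih =>
    rw [pow_succ, ih]
    ext i j
    fin_cases i <;> fin_cases j <;> simp [Matrix.mul_apply, Fin.sum_univ_two]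
    ring

end Nr

open Nr in
/-- **row NRM** -/
theorem nrm : NRM := by
  intro F O τ _ _ _ _ _ _ _ _ _ P φ g₀ a r s d g p q I f hA hs hd hU hi ht
  have ker : ∀ o, algebraMap O F o = 0 ↔ o ∈ maximalIdeal O := fun o => by
    rw [← eq_maximalIdeal (RingHom.ker_isMaximal_of_surjective (algebraMap O F)
      fun x => ⟨s x, hs x⟩), RingHom.mem_ker]
  have two : (2 : O) ∈ maximalIdeal O := (ker 2).1 (by
    rw [map_ofNat]; exact_mod_cast CharP.cast_eq_zero F 2)
  let π : PS O τ →+* F := (algebraMap O F).comp constantCoeff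
  have πC : ∀ o, π (C o) = algebraMap O F o := fun o => by simp [π]
  have kπ : ∀ u, π u = 0 ↔ u ∈ maximalIdeal (PS O τ) := fun u => by
    rw [← eq_maximalIdeal (RingHom.ker_isMaximal_of_surjective π
      fun x => ⟨C (s x), (πC _).trans (hs x)⟩), RingHom.mem_ker]
  have fr : ∀ x, (f x).map π = r x := fun x => Matrix.ext (hU.red x)
  have mC : ∀ M : M2 O, (M.map C).map π = M.map (algebraMap O F) := fun M =>
    Matrix.ext fun i j => πC _
  have dt : (r φ).det = 1 := by
    obtain ⟨k, ⟨m, rfl⟩, hk⟩ := hA.pw φ 1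
    have h1 := (kπ _).2 (hU.le (hU.det φ))
    rw [map_sub, RingHom.map_det, RingHom.mapMatrix_apply, fr, πC, sub_eq_zero] at h1
    have h2 := (ker _).2 ((Ideal.span_singleton_le_iff_mem _).2
      (by rwa [pow_one]) (hd φ 1 _ hk))
    rw [map_sub, map_natCast, sub_eq_zero] at h2
    rw [h1, h2]
    push_cast
    rw [show (2 : F) = 0 by exact_mod_cast CharP.cast_eq_zero F 2, zero_mul, zero_add]
  obtain ⟨c, B, hc, B0, hB⟩ := uni ht dt
  have HB : (B.map s).map (algebraMap O F) = B := Matrix.ext fun i j => hs _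
  obtain ⟨H, HB⟩ : ∃ H : M2 O, H.map (algebraMap O F) = B := ⟨_, HB⟩
  obtain ⟨H', e⟩ : ∃ H', H * H' = 1 := ⟨H⁻¹, mul_nonsing_inv H (not_not.1 fun k => B0 (by
    rw [← HB, ← RingHom.mapMatrix_apply, ← RingHom.map_det]; exact (ker _).2 k))⟩
  have e' := mul_eq_one_comm.1 e
  have hr : ∀ x, r x * B = B * !![1, (c : F) * ((a 2 x).val : F); 0, 1] := fun x => by
    have am : ∀ x y, a 2 (x * y) = a 2 x + a 2 y := fun x y => by rw [(hA.hom 2).2, one_mul]
    have a1 : a 2 1 = 0 := by simpa using am 1 1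
    let α : dec P →* Multiplicative (ZMod 2) := MonoidHom.mk' (fun x => .ofAdd (a 2 x)) am
    obtain ⟨k, i, h, u, hu, rfl⟩ := hA.den (r.toHomUnits.ker ⊓ α.ker) (by
      have o1 := hU.opn 1
      simp only [pow_one, sup_eq_right.2 hU.le, cg_ker π kπ, fr,
        Matrix.map_one _ (map_zero π) (map_one π)] at o1
      refine Eq.mp (congrArg IsOpen (Set.ext fun y => ?_)) (o1.inter ((hA.hom 2).1.isOpen_fiber 0))
      exact and_congr ⟨fun k => Units.ext k, fun k => congrArg Units.val k⟩ Iff.rfl) x
    have u1 : r u = 1 := congrArg Units.val hu.1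
    have e1 : a 2 (φ ^ k) = k := by
      have : a 2 (φ ^ k) = k • a 2 φ := map_pow α φ k
      rw [this, hA.frb, nsmul_one]
    rw [map_mul, map_mul, u1, hi i h, am, am, show a 2 u = 0 from hu.2, hA.unr i h, e1, one_mul,
      mul_one, zero_add, add_zero, map_pow, ← up_pow]
    exact (SemiconjBy.pow_right (a := B) hB.symm k).symm
  have eF := map_inv (algebraMap O F) e
  have eF' := map_inv (algebraMap O F) e'
  rw [HB] at eF eF'
  have eC := map_inv (C : O →+* PS O τ) e
  have eC' := map_inv (C : O →+* PS O τ) e'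
  refine ⟨two, c, H, H', fun t => H' * single (q t) (p t) 1 * H,
    fun t => s (r (g t) (p t) (q t)), by rcases hc with rfl | rfl <;> simp, e, hU.le,
    (cg_conj_one eC).2 hU.one, fun x y => ?_, fun x => ?_, fun x => (cg_ker π kπ).2 ?_,
    fun t => ?_, fun n => ?_, fun A _ _ _ ρ h1 h2 h3 h4 => ?_⟩
  · have := cg_conj (hU.mul x y) (H'.map C) (H.map C)
    rwa [show H'.map C * (f x * f y) * H.map C =
      H'.map C * f x * (H.map C * H'.map C) * f y * H.map C by rw [eC]; noncomm_ring,
      show ∀ a b c d e f : M2 (PS O τ), a * b * (c * d) * e * f = a * b * c * (d * e * f) from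
        fun _ _ _ _ _ _ => by noncomm_ring] at this
  · rw [det_mul, det_mul, mul_right_comm, ← det_mul, eC', det_one, one_mul]
    exact hU.det x
  · rw [Matrix.map_mul, Matrix.map_mul, mC, mC, fr, HB, mul_assoc, hr, ← mul_assoc, eF', one_mul]
    ext i j
    fin_cases i <;> fin_cases j <;> simp [-ZMod.natCast_val]
  · have : ((H' * single (q t) (p t) 1 * H).map C * (H'.map C * f (g t) * H.map C)).trace =
        f (g t) (p t) (q t) := by
      rw [Matrix.map_mul, Matrix.map_mul, ← mul_assoc, ← mul_assoc, mul_assoc _ (H.map C), eC,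
        mul_one, trace_mul_comm, ← mul_assoc, ← mul_assoc, eC, one_mul, map_single _ _ _ C,
        map_one, trace_single_mul, one_smul]
    rw [this]
    exact hU.crd t
  · simp only [cg_conj_one eC]
    exact hU.opn n
  · have eA := map_inv (algebraMap O A) e
    have eA' := map_inv (algebraMap O A) e'
    let ρ' : dec P →* M2 A :=
      { toFun := fun x => H.map (algebraMap O A) * ρ x * H'.map (algebraMap O A)
        map_one' := by rw [map_one, mul_one, eA]
        map_mul' := fun x y => by
          rw [map_mul, show ∀ a b c d e f : M2 A, a * b * c * (d * e * f) = a * b * (c * d) * e * f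
            from fun _ _ _ _ _ _ => by noncomm_ring, eA']
          noncomm_ring }
    have hρ : LiftC r s d ρ' := by
      refine ⟨fun n => ?_, h1, fun x i j => ?_, fun x => ?_⟩
      · simp only [ρ', MonoidHom.coe_mk, OneHom.coe_mk, cg_conj_one eA']
        exact h2 n
      · have k1 := cg_conj (h3 x) (H.map (algebraMap O A)) (H'.map (algebraMap O A)) i j
        have k2 : Cg (maximalIdeal O) (H * !![1, (c : O) * ((a 2 x).val : O); 0, 1] * H')
            ((r x).map s) := (cg_ker _ ker).2 (by
          rw [Matrix.map_mul, Matrix.map_mul, HB,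
            show ((r x).map s).map (algebraMap O F) = r x from Matrix.ext fun i j => hs _,
            ← mul_one (r x), ← eF, ← mul_assoc, hr]
          congr 2
          ext i j
          fin_cases i <;> fin_cases j <;> simp [-ZMod.natCast_val])
        have k3 := h1 _ (k2 i j)
        rw [map_sub, ← Matrix.map_apply (f := algebraMap O A), Matrix.map_mul, Matrix.map_mul,
          show !![1, (c : O) * ((a 2 x).val : O); 0, 1].map (algebraMap O A) =
            !![1, algebraMap O A c * ((a 2 x).val : A); 0, 1] by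
            ext i j
            fin_cases i <;> fin_cases j <;> simp [-ZMod.natCast_val]] at k3
        exact sub_add_sub_cancel (_ : A) _ _ ▸ add_mem k1 k3
      · show det (H.map (algebraMap O A) * ρ x * H'.map (algebraMap O A)) = _
        rw [det_mul, det_mul, mul_right_comm, ← det_mul, eA, det_one, one_mul, h4]
    obtain ⟨ψ, a1, a2, a3⟩ := (luc _ F O τ r s d g p q I f hs hU A).1 ρ' hρ
    have ψC : ∀ M : M2 O, (M.map C).map ψ = M.map (algebraMap O A) := fun M =>
      Matrix.ext fun i j => ψ.commutes _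
    refine ⟨ψ, fun t => a1 t ▸ hρ.red _ _ _, a2, fun x => ?_⟩
    rw [Matrix.map_mul, Matrix.map_mul, ψC, ψC, a3]
    show _ * (H.map (algebraMap O A) * ρ x * H'.map (algebraMap O A)) * _ = _
    rw [← mul_assoc, ← mul_assoc, eA', one_mul, mul_assoc, eA', mul_one]

end Vale.Agent.P022K.O2
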