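import Vale.Agent.P022K.O2.Fam
import Vale.Agent.P022K.O2.Ar
import Vale.Agent.P022K.O2.Nrm
import Vale.Agent.P022K.O2.Asm
import Vale.Agent.P022K.RT.Ufr

/-! P022K, block O2: the output, nothing assumed. -/

namespace Vale.Agent.P022K.O2

theorem ord2 : ORD2 := ord2_of ar nrm (fam_of RT.ufr)

end Vale.Agent.P022K.O2
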