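import Vale.Agent.P022K.O2.St
import Vale.Agent.P022K.RT.Orb
import Vale.Agent.P022D.PA.Lim

/-! P022K, block O2: rows PF, LIM, UNQ. -/

set_option linter.all false

noncomputable section

namespace Vale.Agent.P022K.O2

open IsLocalRing MvPowerSeries Filter
open Vale.Agent.P022 Vale.Agent.P022D
open Vale.Agent.P022D.L2 (Coc Cup0)
open Vale.Agent.P022D.Core (PS)
open Vale.Agent.P022D.PA (Base)
open Vale.Agent.P022K.PL (Cf)
open Vale.Agent.P027M.S (Inert)
open Vale.Agent.P022D.W (dec)
open Vale.Agent.P022K.GW (Id)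

theorem pf : PF := by
  intro O τ σ A B _ _ _ _ _ _ 𝔞 𝔟 Q ψ θ l x h1 h2 h3 h4 h5 u hu
  classical
  have ev : ∀ (n : ℕ) (p : MvPolynomial σ A), (∀ m, p.coeff m ∈ 𝔞 ^ n) →
      MvPolynomial.eval₂ (θ : A →+* B) l p ∈ 𝔟 ^ n := fun n p hp => by
    rw [MvPolynomial.eval₂_eq]
    exact Ideal.sum_mem _ fun m _ => Ideal.mul_mem_right _ _
      (RT.Or.pow_map (θ : A →+* B) h3 n _ (hp m))
  have key : ∀ (n : ℕ) (u : PS O τ), ∃ p : MvPolynomial σ A,
      (∀ m, coeff m (ψ u - (p : MvPowerSeries σ A)) ∈ 𝔞 ^ n) ∧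
        x u - MvPolynomial.eval₂ (θ : A →+* B) l p ∈ 𝔟 ^ n := fun n => by
    induction n with
    | zero => exact fun u => ⟨0, by simp, by simp⟩
    | succ n ih =>
      intro u
      obtain ⟨c, e⟩ := L2b.decomp u
      choose p p1 p2 using fun t => ih (c t)
      refine ⟨MvPolynomial.C (algebraMap O A (constantCoeff u)) + ∑ t, Q t * p t, fun m => ?_, ?_⟩
      · have e1 : ψ u - ((MvPolynomial.C (algebraMap O A (constantCoeff u)) + ∑ t, Q t * p t :
            MvPolynomial σ A) : MvPowerSeries σ A) =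
            ∑ t, (Q t : MvPowerSeries σ A) * (ψ (c t) - (p t : MvPowerSeries σ A)) := by
          have e2 : ψ (C (constantCoeff u)) = C (algebraMap O A (constantCoeff u)) :=
            (ψ.commutes _).trans (MvPowerSeries.algebraMap_apply ..)
          have e3 := map_sum (MvPolynomial.coeToMvPowerSeries.ringHom (σ := σ) (R := A))
            (fun t => Q t * p t) Finset.univ
          simp only [MvPolynomial.coeToMvPowerSeries.ringHom_apply, MvPolynomial.coe_mul] at e3
          rw [MvPolynomial.coe_add, MvPolynomial.coe_C, e3]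
          nth_rewrite 1 [e]
          simp only [map_add, map_sum, map_mul, h2, e2, mul_sub, Finset.sum_sub_distrib]
          ring
        rw [e1, map_sum]
        refine Ideal.sum_mem _ fun t _ => ?_
        rw [coeff_mul, pow_succ']
        exact Ideal.sum_mem _ fun a _ => Ideal.mul_mem_mul (by
          rw [MvPolynomial.coeff_coe]; exact h1 t _) (p1 t _)
      · have e1 : x u - MvPolynomial.eval₂ (θ : A →+* B) l
            (MvPolynomial.C (algebraMap O A (constantCoeff u)) + ∑ t, Q t * p t) =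
            ∑ t, x (X t) * (x (c t) - MvPolynomial.eval₂ (θ : A →+* B) l (p t)) := by
          have e2 : x (C (constantCoeff u)) = (θ : A →+* B) (algebraMap O A (constantCoeff u)) :=
            (x.commutes _).trans (θ.commutes _).symm
          rw [MvPolynomial.eval₂_add, MvPolynomial.eval₂_C, MvPolynomial.eval₂_sum]
          nth_rewrite 1 [e]
          simp only [map_add, map_sum, map_mul, e2, mul_sub, Finset.sum_sub_distrib,
            MvPolynomial.eval₂_mul, h5]
          ring
        rw [e1, pow_succ']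
        refine Ideal.sum_mem _ fun t _ => Ideal.mul_mem_mul ?_ (p2 t)
        rw [h5, ← pow_one 𝔟]
        exact ev 1 _ fun m => by rw [pow_one]; exact h1 t m
  refine h4 _ fun n => ?_
  obtain ⟨p, p1, p2⟩ := key n u
  have := add_mem p2 (ev n p fun m => by
    have := p1 m
    rwa [hu, zero_sub, map_neg, neg_mem_iff, MvPolynomial.coeff_coe] at this)
  rwa [sub_add_cancel] at this

section nak

variable {G A : Type} [Group G] [TopologicalSpace G] [IsTopologicalGroup G] [CommRing A]

/-- a function which is constant along an open set which contains the identity -/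
theorem lc_of {B : Type} {b : G → B} {U : Set G} (hU : IsOpen U) (h1 : 1 ∈ U)
    (h : ∀ x, ∀ y ∈ U, b (x * y) = b x) : IsLocallyConstant b :=
  (IsLocallyConstant.iff_exists_open _).2 fun x => ⟨(fun y => x⁻¹ * y) ⁻¹' U,
    hU.preimage (by fun_prop), by simpa using h1, fun y hy => by
      rw [← h x _ hy, mul_inv_cancel_left]⟩

theorem open_of {S U : Set G} (hU : IsOpen U) (h1 : 1 ∈ U) (h : ∀ x ∈ S, ∀ y ∈ U, x * y ∈ S) :
    IsOpen S := isOpen_iff_forall_mem_open.2 fun x hx => ⟨(fun y => x⁻¹ * y) ⁻¹' U,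
      fun y hy => by simpa using h x hx _ hy, hU.preimage (by fun_prop), by simpa using h1⟩

/-- **Nakayama** for cocycles modulo an ideal -/
theorem nak {g : Fin 3 → G}
    (gen : ∀ b : G → ZMod 2, Coc (fun _ => 1) b → (∀ j, b (g j) = 0) → ∀ x, b x = 0)
    {m K : Ideal A} (h2 : (2 : A) ∈ m) {χ c : G → A} (hχ : ∀ x, χ x - 1 ∈ m)
    (hc : ∀ x y, c (x * y) - (c x + χ x * c y) ∈ K) (ho : ∀ n : ℕ, IsOpen {x | c x ∈ K ⊔ m ^ n})
    (c1 : c 1 ∈ K) (h0 : ∀ j, c (g j) ∈ K) (n : ℕ) : ∀ x, c x ∈ K ⊔ m ^ n := by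
  induction n with
  | zero => simp
  | succ n ih =>
    have hm : ∀ z ∈ m, ∀ y ∈ K ⊔ m ^ n, z * y ∈ K ⊔ m ^ (n + 1) := fun z hz y hy => by
      obtain ⟨u, hu, v, hv, rfl⟩ := Submodule.mem_sup.1 hy
      rw [mul_add, pow_succ']
      exact Submodule.add_mem_sup (K.mul_mem_left _ hu) (Ideal.mul_mem_mul hz hv)
    let mk := Ideal.Quotient.mk (K ⊔ m ^ (n + 1))
    have ad : ∀ x y, mk (c (x * y)) = mk (c x) + mk (c y) := fun x y => by
      rw [← map_add, Ideal.Quotient.eq]
      have := add_mem (Ideal.mem_sup_left (hc x y)) (hm _ (hχ x) _ (ih y))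
      convert this using 1
      ring
    let W : AddSubgroup (A ⧸ K ⊔ m ^ (n + 1)) := (nsmulAddMonoidHom 2).ker
    letI : Module (ZMod 2) W := AddCommGroup.zmodModule fun w => Subtype.ext w.2
    have hW : ∀ x, mk (c x) ∈ W := fun x => by
      show 2 • mk (c x) = 0
      rw [← map_nsmul, Ideal.Quotient.eq_zero_iff_mem, nsmul_eq_mul]
      exact hm _ (by exact_mod_cast h2) _ (ih x)
    intro x
    have h3 := (Module.forall_dual_apply_eq_zero_iff (ZMod 2) (⟨_, hW x⟩ : W)).1 fun f => by
      have z : ∀ y, c y ∈ K ⊔ m ^ (n + 1) → f ⟨_, hW y⟩ = 0 := fun y hy => by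
        rw [show (⟨_, hW y⟩ : W) = 0 from Subtype.ext (Ideal.Quotient.eq_zero_iff_mem.2 hy),
          map_zero]
      have ad' : ∀ x y, f ⟨_, hW (x * y)⟩ = f ⟨_, hW x⟩ + f ⟨_, hW y⟩ := fun x y => by
        rw [← map_add]
        exact congrArg f (Subtype.ext (ad x y))
      exact gen (fun y => f ⟨_, hW y⟩) ⟨lc_of (ho (n + 1)) (Ideal.mem_sup_left c1) fun x y hy => by
        rw [ad', z y hy, add_zero], fun x y => by beta_reduce; rw [ad', one_mul]⟩
        (fun j => z _ (Ideal.mem_sup_left (h0 j))) x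
    exact Ideal.Quotient.eq_zero_iff_mem.1 (congrArg Subtype.val h3)

theorem mem_of_sup [IsNoetherianRing A] [IsLocalRing A] {K : Ideal A} {z : A}
    (h : ∀ n : ℕ, z ∈ K ⊔ maximalIdeal A ^ n) : z ∈ K := PA.mem_of_sup K z h

theorem Co.one [IsLocalRing A] {χ : G →* A} {c : G → A} (h : Co χ c) : c 1 = 0 := by
  simpa using h.mul 1 1

theorem Co.lin [IsLocalRing A] {χ : G →* A} {c c' : G → A} (h : Co χ c) (h' : Co χ c') (s t : A) :
    Co χ fun x => s * c x + t * c' x :=
  ⟨fun x y => by rw [h.mul, h'.mul]; ring, fun n => open_of ((h.cts n).inter (h'.cts n))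
    ⟨by simp [h.one], by simp [h'.one]⟩ fun x hx y hy => by
      have := add_mem hx (Ideal.mul_mem_left _ (χ x) (add_mem (Ideal.mul_mem_left _ s hy.1)
        (Ideal.mul_mem_left _ t hy.2)))
      show s * c (x * y) + t * c' (x * y) ∈ maximalIdeal A ^ n
      rw [h.mul, h'.mul]
      convert this using 1
      ring⟩

end nak

section ar

variable {P : Id} {φ : dec P} {g : Fin 3 → dec P} {a : Fin 3 → dec P → ZMod 2}

theorem inert_one (P : Id) : Inert P ((1 : dec P) : GQ) := fun x => by simp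

/-- an open subgroup which contains the inertia group and the Frobenius element -/
theorem Ar.top (h : Ar P φ g a) (U : Subgroup (dec P)) (hU : IsOpen (U : Set (dec P)))
    (h1 : φ ∈ U) (h2 : ∀ i : dec P, Inert P i → i ∈ U) (x : dec P) : x ∈ U := by
  obtain ⟨k, i, hi, u, hu, rfl⟩ := h.den U hU x
  exact U.mul_mem (U.mul_mem hu (U.pow_mem h1 k)) (h2 i hi)

variable {A : Type} [CommRing A]

/-- the elements at which two characters are congruent -/
def cg {G : Type} [Group G] (l l' : G →* A) (K : Ideal A) : Subgroup G where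
  carrier := {x | l x - l' x ∈ K}
  mul_mem' {x y} hx hy := by
    have := add_mem (K.mul_mem_right (l y) hx) (K.mul_mem_left (l' x) hy)
    show l (x * y) - l' (x * y) ∈ K
    rw [map_mul, map_mul]
    convert this using 1
    ring
  one_mem' := by simp
  inv_mem' {x} hx := by
    have := K.mul_mem_left (-(l x⁻¹ * l' x⁻¹)) hx
    have e1 : l x⁻¹ * l x = 1 := by rw [← map_mul, inv_mul_cancel, map_one]
    have e2 : l' x⁻¹ * l' x = 1 := by rw [← map_mul, inv_mul_cancel, map_one]
    show l x⁻¹ - l' x⁻¹ ∈ K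
    convert this using 1
    linear_combination (-l x⁻¹) * e2 + (l' x⁻¹) * e1

theorem Cyc.map {e : dec P → A} (h : Cyc P e) {B : Type} [CommRing B] (θ : A →+* B) :
    Cyc P fun x => θ (e x) := fun x n k hk => by
  obtain ⟨y, hy⟩ := Ideal.mem_span_singleton'.1 (h x n k hk)
  refine Ideal.mem_span_singleton'.2 ⟨θ y, ?_⟩
  rw [← map_natCast θ, ← map_sub, ← hy, map_mul, map_pow, map_ofNat]

theorem Cyc.red (h : Ar P φ g a) {e : dec P → A} (he : Cyc P e) {m : Ideal A} (h2 : (2 : A) ∈ m)
    (x : dec P) : e x - 1 ∈ m := by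
  obtain ⟨k, ⟨j, rfl⟩, hk⟩ := h.pw x 1
  obtain ⟨y, hy⟩ := Ideal.mem_span_singleton'.1 (he x 1 _ hk)
  have : e x - 1 = 2 * (y + j) := by
    push_cast at hy
    linear_combination -hy
  rw [this]
  exact m.mul_mem_right _ h2

theorem Cyc.cts (h : Ar P φ g a) {e : dec P →* A} (he : Cyc P e) {m : Ideal A} (h2 : (2 : A) ∈ m)
    (n : ℕ) : IsOpen {x | e x - 1 ∈ m ^ n} :=
  Subgroup.isOpen_of_mem_nhds (cg e 1 (m ^ n)) (g := 1) (Filter.mem_of_superset
    ((h.cts n).mem_nhds fun ζ _ => rfl) fun x hx => by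
      have := he x n 1 fun ζ hζ => by rw [pow_one]; exact hx ζ hζ
      rw [Nat.cast_one] at this
      exact (Ideal.span_singleton_le_iff_mem _).2 (Ideal.pow_mem_pow h2 n) this)

variable [IsLocalRing A]

theorem Ur.cg (h : Ar P φ g a) {l l' : dec P →* A} (hl : Ur P φ l) (hl' : Ur P φ l') {K : Ideal A}
    (e : l φ - l' φ ∈ K) (n : ℕ) (x : dec P) : l x - l' x ∈ K ⊔ maximalIdeal A ^ n :=
  h.top (O2.cg l l' (K ⊔ maximalIdeal A ^ n)) (Subgroup.isOpen_of_mem_nhds _ (g := 1) (Filter.mem_of_superset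
    (((hl.cts n).inter (hl'.cts n)).mem_nhds ⟨by simp, by simp⟩) fun x hx => by
      have := (maximalIdeal A ^ n).sub_mem hx.1 hx.2
      rw [sub_sub_sub_cancel_right] at this
      exact Ideal.mem_sup_right this)) (Ideal.mem_sup_left e)
    (fun i hi => by
      show l i - l' i ∈ K ⊔ maximalIdeal A ^ n
      rw [hl.unr i hi, hl'.unr i hi, sub_self]
      exact zero_mem _) x

theorem Ur.one : Ur P φ (1 : dec P →* A) := ⟨fun n => by simp, fun _ _ => rfl, by simp⟩

theorem Ur.all (h : Ar P φ g a) {l : dec P →* A} (hl : Ur P φ l) (x : dec P) :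
    l x - 1 ∈ maximalIdeal A := by
  simpa using hl.cg h Ur.one hl.red 1 x

theorem Ur.ext [IsNoetherianRing A] (h : Ar P φ g a) {l l' : dec P →* A} (hl : Ur P φ l)
    (hl' : Ur P φ l') (e : l φ = l' φ) : l = l' := MonoidHom.ext fun x =>
  sub_eq_zero.1 (mem_of_sup (K := ⊥) fun n => hl.cg h hl' (by simp [e]) n x)

theorem chi_red (h : Ar P φ g a) {e l : dec P →* A} (he : Cyc P e) (h2 : (2 : A) ∈ maximalIdeal A)
    (hl : Ur P φ l) (x : dec P) : e x * l x - 1 ∈ maximalIdeal A := by
  have := add_mem (Ideal.mul_mem_right (l x) _ (he.red h h2 x)) (hl.all h x)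
  convert this using 1
  ring

end ar

theorem lim : LIM := by
  intro P φ g a h A _ hA e lam j h2 he hl hj
  let m := maximalIdeal A
  have st : ∀ n : ℕ, ∃ c : dec P → A, (∀ x y, c (x * y) - (c x + e x * lam x * c y) ∈ m ^ (n + 1)) ∧
      (∀ k ≤ n + 1, IsOpen {x | c x ∈ m ^ k}) ∧ ∀ x, c x - ((a j x).val : A) ∈ m := fun n => by
    let mk := Ideal.Quotient.mk (m ^ (n + 1))
    haveI := RT.fin_pow A (n + 1)
    obtain ⟨M, M0, hM⟩ : ∃ M, 0 < M ∧ mk (lam φ) ^ M = 1 := by
      have := isOfFinOrder_of_finite ((mk.toMonoidHom.comp lam).toHomUnits φ)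
      obtain ⟨M, M0, hM⟩ := isOfFinOrder_iff_pow_eq_one.1 this
      exact ⟨M, M0, by simpa using congrArg Units.val hM⟩
    obtain ⟨c, c1, c2⟩ := h.kum _ (n + 1) M (mk.toMonoidHom.comp e) (mk.toMonoidHom.comp lam) j M0
      (by rw [← map_ofNat mk, ← map_pow]
          exact Ideal.Quotient.eq_zero_iff_mem.2 (Ideal.pow_mem_pow h2 _)) hM (he.map mk)
      (by
        convert hl.cts (n + 1) using 3 with x
        rw [← Ideal.Quotient.eq, map_one]
        rfl)
      (fun i hi => by show mk (lam i) = 1; rw [hl.unr i hi, map_one])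
      fun e => by show mk (lam φ) = 1; rw [hj e, map_one]
    choose s hs using Ideal.Quotient.mk_surjective (I := m ^ (n + 1))
    refine ⟨fun x => s (c x), fun x y => ?_, fun k hk => c1.1 {z | s z ∈ m ^ k}, fun x => ?_⟩
    · rw [← Ideal.Quotient.eq, map_add, map_mul, map_mul, hs, hs, hs, c1.2]
      rfl
    · obtain ⟨u, v, e⟩ := Ideal.mem_span_pair.1 (c2 x)
      have : s (c x) - ((a j x).val : A) - (s u * 2 + s v * (lam φ - 1)) ∈ m ^ (n + 1) := by
        rw [← Ideal.Quotient.eq, map_sub, map_add, map_mul, map_mul, hs, hs, hs, map_natCast,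
          map_sub, map_one, map_ofNat, ← e]
        rfl
      have := add_mem (Ideal.pow_le_self n.succ_ne_zero this)
        (add_mem (m.mul_mem_left (s u) h2) (m.mul_mem_left (s v) hl.red))
      rwa [sub_add_cancel] at this
  choose c c1 c2 c3 using st
  let U : Ultrafilter ℕ := Ultrafilter.of atTop
  have hU : ∀ k, ∀ᶠ n in (U : Filter ℕ), k ≤ n + 1 := fun k =>
    (Ultrafilter.of_le atTop : (U : Filter ℕ) ≤ atTop)
      ((eventually_ge_atTop k).mono fun n hn => by omega)
  choose b hb using fun x => PA.lim A U fun n => c n x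
  have mul : ∀ x y, b (x * y) = b x + e x * lam x * b y := fun x y =>
    sub_eq_zero.1 (mem_of_sup (K := ⊥) fun k => by
      obtain ⟨n, ⟨⟨a1, a2⟩, a3⟩, a4⟩ :=
        ((((hb (x * y) k).and (hb x k)).and (hb y k)).and (hU k)).exists
      have := add_mem (add_mem (sub_mem (Ideal.pow_le_pow_right a4 (c1 n x y)) a1) a2)
        (Ideal.mul_mem_left _ (e x * lam x) a3)
      refine Ideal.mem_sup_right ?_
      convert this using 1
      ring)
  have one : ∀ n, c n 1 ∈ m ^ (n + 1) := fun n => by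
    have := c1 n 1 1
    simp only [mul_one, map_one, one_mul] at this
    rwa [show c n 1 - (c n 1 + c n 1) = -c n 1 by ring, neg_mem_iff] at this
  refine ⟨b, ⟨mul, fun k => ?_⟩, fun x => ?_⟩
  · have all : ∀ᶠ n in (U : Filter ℕ), (∀ i, c n (g i) - b (g i) ∈ m ^ k) ∧ k ≤ n + 1 :=
      (eventually_all.2 fun i => hb (g i) k).and (hU k)
    obtain ⟨n, n1, n2⟩ := all.exists
    have key : ∀ n', (∀ i, c n' (g i) - b (g i) ∈ m ^ k) → k ≤ n' + 1 → ∀ x,
        c n' x - c n x ∈ m ^ k := fun n' p1 p2 x => by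
      have mu : ∀ x y, c n' (x * y) - c n (x * y) - (c n' x - c n x +
          e x * lam x * (c n' y - c n y)) ∈ m ^ k := fun x y => by
        have := sub_mem (Ideal.pow_le_pow_right p2 (c1 n' x y))
          (Ideal.pow_le_pow_right n2 (c1 n x y))
        convert this using 1
        ring
      have o : IsOpen {x | c n' x - c n x ∈ m ^ k} := open_of ((c2 n' k p2).inter (c2 n k n2))
        ⟨Ideal.pow_le_pow_right p2 (one n'), Ideal.pow_le_pow_right n2 (one n)⟩ fun x hx y hy => by
          have := add_mem (mu x y) (add_mem hx (Ideal.mul_mem_left _ (e x * lam x)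
            (sub_mem hy.1 hy.2)))
          rwa [sub_add_cancel] at this
      have := nak h.gen h2 (chi_red h he h2 hl) (c := fun x => c n' x - c n x) mu
        (fun r => open_of o (sub_mem (Ideal.pow_le_pow_right p2 (one n'))
          (Ideal.pow_le_pow_right n2 (one n))) fun x hx y hy => by
            have := add_mem (Ideal.mem_sup_left (mu x y)) (add_mem hx
              (Ideal.mem_sup_left (Ideal.mul_mem_left _ (e x * lam x) hy)))
            rwa [sub_add_cancel] at this)
        (sub_mem (Ideal.pow_le_pow_right p2 (one n')) (Ideal.pow_le_pow_right n2 (one n)))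
        (fun i => by simpa using sub_mem (p1 i) (n1 i)) k x
      rwa [sup_idem] at this
    have e1 : ∀ x, b x - c n x ∈ m ^ k := fun x => by
      obtain ⟨n', ⟨p1, p2⟩, p3⟩ := (all.and (hb x k)).exists
      simpa using sub_mem (key n' p1 p2 x) p3
    convert c2 n k n2 using 3 with x
    exact ⟨fun hx => by simpa using sub_mem hx (e1 x),
      fun hx => by simpa using add_mem hx (e1 x)⟩
  · obtain ⟨n, hn⟩ := (hb x 1).exists
    rw [pow_one] at hn
    have := sub_mem (c3 n x) hn
    rwa [sub_sub_sub_cancel_left] at this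

theorem co_div {G V : Type} [Group G] [TopologicalSpace G] [CommRing V] [IsDomain V]
    [IsDiscreteValuationRing V] {t : V} (ht : t ≠ 0) {c z : G → V} (e : ∀ x, z x * t = c x)
    (h : ∀ n : ℕ, IsOpen {x | c x ∈ maximalIdeal V ^ n}) (n : ℕ) :
    IsOpen {x | z x ∈ maximalIdeal V ^ n} := by
  obtain ⟨ϖ, hϖ⟩ := IsDiscreteValuationRing.exists_irreducible V
  obtain ⟨k, u, rfl⟩ := IsDiscreteValuationRing.eq_unit_mul_pow_irreducible ht hϖ
  convert h (n + k) using 3 with x
  rw [hϖ.maximalIdeal_eq, Ideal.span_singleton_pow, Ideal.span_singleton_pow,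
    Ideal.mem_span_singleton, Ideal.mem_span_singleton, ← e, pow_add, ← mul_assoc,
    mul_dvd_mul_iff_right (pow_ne_zero k hϖ.ne_zero), Units.dvd_mul_right]

/-- cocycles with given values -/
theorem ex_val {P : Id} {φ : dec P} {g : Fin 3 → dec P} {a : Fin 3 → dec P → ZMod 2}
    (h : Ar P φ g a) {A : Type} [CommRing A] [Base A] {e lam : dec P →* A}
    (h2 : (2 : A) ∈ maximalIdeal A) (he : Cyc P e) (hl : Ur P φ lam) :
    ∃ b b' : dec P → A, Co (e * lam : dec P →* A) b ∧ Co (e * lam : dec P →* A) b' ∧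
      b (g 0) = 1 ∧ b (g 2) = 0 ∧ b' (g 0) = 0 ∧ b' (g 2) = 1 ∧
      (∀ x, b x - ((a 0 x).val : A) ∈ maximalIdeal A) ∧
      ∀ x, b' x - ((a 2 x).val : A) ∈ maximalIdeal A := by
  obtain ⟨c, c1, c2⟩ := lim P φ g a h A e lam 0 h2 he hl (by simp)
  obtain ⟨d, d1, d2⟩ := lim P φ g a h A e lam 2 h2 he hl (by simp)
  have c1 : Co (e * lam : dec P →* A) c := c1
  have d1 : Co (e * lam : dec P →* A) d := d1
  let π := residue A
  have c3 : ∀ x, π (c x) = ((a 0 x).val : ResidueField A) := fun x => by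
    rw [← map_natCast π]; exact Ideal.Quotient.eq.2 (c2 x)
  have d3 : ∀ x, π (d x) = ((a 2 x).val : ResidueField A) := fun x => by
    rw [← map_natCast π]; exact Ideal.Quotient.eq.2 (d2 x)
  have v1 : (1 : ZMod 2).val = 1 := rfl
  have e1 : π (c (g 0)) = 1 := by simp [c3, h.dual, v1]
  have e2 : π (c (g 2)) = 0 := by simp [c3, h.dual]
  have e3 : π (d (g 0)) = 0 := by simp [d3, h.dual]
  have e4 : π (d (g 2)) = 1 := by simp [d3, h.dual, v1]
  have hu : IsUnit (c (g 0) * d (g 2) - c (g 2) * d (g 0)) := by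
    rw [← residue_ne_zero_iff_isUnit]
    show π _ ≠ 0
    simp [e1, e2, e3, e4]
  obtain ⟨w, hw⟩ := hu.exists_left_inv
  have e5 : π w = 1 := by simpa [e1, e2, e3, e4] using congrArg π hw
  refine ⟨_, _, c1.lin d1 (w * d (g 2)) (-(w * c (g 2))), c1.lin d1 (-(w * d (g 0))) (w * c (g 0)),
    by linear_combination hw, by ring, by ring, by linear_combination hw, fun x => ?_,
    fun x => ?_⟩ <;>
  · rw [← residue_eq_zero_iff]
    show π _ = 0
    simp only [map_sub, map_add, map_mul, map_neg, map_natCast, e1, e2, e3, e4, e5, c3 x, d3 x]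
    ring

theorem unq : UNQ := by
  intro P φ g a h V _ _ _ _ e lam c h2 he hl hν hc c0 c2
  haveI := RT.Or.base_cf V
  have hc : Co (e * lam : dec P →* V) c := hc
  let m := maximalIdeal V
  have op : ∀ {χ : dec P →* V} {c : dec P → V}, Co χ c → ∀ (K : Ideal V) (n : ℕ),
      IsOpen {x | c x ∈ K ⊔ m ^ n} := fun {χ c} hc K n => open_of (hc.cts n) (by simp [hc.one])
    fun x hx y hy => by
      show c (x * y) ∈ K ⊔ m ^ n
      rw [hc.mul]
      exact add_mem hx (Ideal.mem_sup_right (Ideal.mul_mem_left _ _ hy))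
  have k1 : ∀ x, c x ∈ Ideal.span {c (g 1)} := fun x => mem_of_sup fun n =>
    nak h.gen h2 (chi_red h he h2 hl) (c := c) (fun x y => by rw [hc.mul]; simp) (op hc _)
      (by simp [hc.one]) (fun j => by
        fin_cases j
        · simp [c0]
        · exact Ideal.mem_span_singleton_self _
        · simp [c2]) n x
  by_cases ht : c (g 1) = 0
  · exact fun x => by simpa [ht] using k1 x
  exfalso
  choose c' hc' using fun x => Ideal.mem_span_singleton'.1 (k1 x)
  have d1 : Co (e * lam : dec P →* V) c' := ⟨fun x y => mul_right_cancel₀ ht (by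
    rw [add_mul, mul_assoc, hc', hc', hc', hc.mul]), co_div ht hc' hc.cts⟩
  have z0 : ∀ x, c x = 0 → c' x = 0 := fun x hx =>
    (mul_eq_zero.1 ((hc' x).trans hx)).resolve_right ht
  have z1 : c' (g 1) = 1 := mul_right_cancel₀ ht (by rw [hc', one_mul])
  obtain ⟨b, b', b1, b2, b3, b4, b5, b6, b7, b8⟩ := ex_val h h2 he (Ur.one (A := V))
  obtain ⟨k, k2, k3⟩ := lim P φ g a h V e 1 1 h2 he Ur.one fun _ => rfl
  have k2 : Co (e * 1 : dec P →* V) k := k2
  let π := residue V
  have v1 : (1 : ZMod 2).val = 1 := rfl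
  have r0 : ∀ {c : dec P → V} {j}, (∀ x, c x - ((a j x).val : V) ∈ m) → ∀ x,
      π (c x) = ((a j x).val : ResidueField V) := fun hc x => by
    rw [← map_natCast π]; exact Ideal.Quotient.eq.2 (hc x)
  have e0 : π (k (g 0)) = 0 := by simp [r0 k3, h.dual]
  have e2 : π (k (g 2)) = 0 := by simp [r0 k3, h.dual]
  have k4 := k2.lin (b1.lin b2 (k (g 0)) (k (g 2))) 1 (-1)
  have r1 : ∀ x, π (1 * k x + -1 * (k (g 0) * b x + k (g 2) * b' x)) =
      ((a 1 x).val : ResidueField V) := fun x => by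
    simp only [map_add, map_mul, map_neg, map_one, e0, e2, r0 k3 x]
    ring
  have hu : IsUnit (1 * k (g 1) + -1 * (k (g 0) * b (g 1) + k (g 2) * b' (g 1))) := by
    rw [← residue_ne_zero_iff_isUnit]
    show π _ ≠ 0
    rw [r1]
    simp [h.dual, v1]
  obtain ⟨w, hw⟩ := hu.exists_left_inv
  have e5 : π w = 1 := by
    have := congrArg π hw
    rw [map_mul, r1] at this
    simpa [h.dual, v1] using this
  obtain ⟨κ, κ1, κ2, κ3⟩ : ∃ κ : dec P → V, Co (e * 1 : dec P →* V) κ ∧ (∀ j, κ (g j) = c' (g j)) ∧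
      ∀ x, π (κ x) = ((a 1 x).val : ResidueField V) := by
    refine ⟨_, k4.lin k4 w 0, fun j => ?_, fun x => by
      rw [zero_mul, add_zero, map_mul, r1, e5, one_mul]⟩
    fin_cases j
    · simp [z0 _ c0, b3, b5]
    · exact (by rw [zero_mul, add_zero]; exact hw : _ = (1 : V)).trans z1.symm
    · simp [z0 _ c2, b4, b6]
  have hν' : lam φ - 1 ≠ 0 := sub_ne_zero.2 hν
  have l1 : ∀ x, lam x - 1 ∈ Ideal.span {lam φ - 1} := fun x => mem_of_sup fun n =>
    hl.cg h Ur.one (Ideal.mem_span_singleton_self _) n x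
  choose u hu using fun x => Ideal.mem_span_singleton'.1 (l1 x)
  have u1 : ∀ x y, u (x * y) = u x + lam x * u y := fun x y => mul_right_cancel₀ hν' (by
    rw [add_mul, mul_assoc, hu, hu, hu, map_mul]; ring)
  have r2 : ∀ x, π (lam x) = 1 := fun x => by
    rw [← map_one π]; exact Ideal.Quotient.eq.2 (hl.all h x)
  have r3 : ∀ x, π (e x) = 1 := fun x => by
    rw [← map_one π]; exact Ideal.Quotient.eq.2 (he.red h h2 x)
  have two : (2 : ResidueField V) = 0 := by
    rw [← map_ofNat π]; exact (residue_eq_zero_iff _).2 h2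
  haveI : CharP (ResidueField V) 2 := CharTwo.of_one_ne_zero_of_two_eq_zero one_ne_zero two
  letI : Algebra (ZMod 2) (ResidueField V) := ZMod.algebra _ 2
  have cst : ∀ t : ZMod 2, (t.val : ResidueField V) = algebraMap _ _ t := fun t => by
    rw [← map_natCast (algebraMap (ZMod 2) (ResidueField V)), ZMod.natCast_zmod_val]
  have am : ∀ j x y, a j (x * y) = a j x + a j y := fun j x y => by rw [(h.hom j).2, one_mul]
  have a1 : ∀ j, a j 1 = 0 := fun j => by simpa using am j 1 1
  have uo := co_div hν' hu hl.cts 1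
  have u0 : u 1 = 0 := by simpa using u1 1 1
  have r4 : ∀ x, π (u x) = algebraMap _ _ (a 2 x) := by
    let S : Subgroup (dec P) :=
      { carrier := {x | π (u x) = algebraMap _ _ (a 2 x)}
        mul_mem' := fun {x y} hx hy => by
          show π (u (x * y)) = _
          rw [u1, map_add, map_mul, r2, one_mul, hx, hy, am, map_add]
        one_mem' := by show π (u 1) = _; rw [u0, a1, map_zero, map_zero]
        inv_mem' := fun {x} hx => by
          have p1 := congrArg π (u1 x x⁻¹)
          have p2 := congrArg (algebraMap (ZMod 2) (ResidueField V)) (am 2 x x⁻¹)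
          rw [mul_inv_cancel, u0, map_zero, map_add, map_mul, r2, one_mul, hx] at p1
          rw [mul_inv_cancel, a1, map_zero, map_add] at p2
          exact add_left_cancel (p1.symm.trans p2) }
    refine h.top S (Subgroup.isOpen_of_mem_nhds S (g := 1) (Filter.mem_of_superset
      ((uo.inter ((h.hom 2).1.isOpen_fiber 0)).mem_nhds ⟨by simp [u0], a1 2⟩) fun x hx => ?_))
      ?_ fun i hi => ?_
    · show π (u x) = _
      rw [show a 2 x = 0 from hx.2, map_zero]
      exact (residue_eq_zero_iff _).2 (by simpa using hx.1)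
    · show π (u φ) = _
      rw [h.frb, map_one, mul_right_cancel₀ hν' ((hu φ).trans (one_mul _).symm), map_one]
    · show π (u i) = _
      rw [h.unr i hi, map_zero, (mul_eq_zero.1 ((hu i).trans (by
        rw [hl.unr i hi, sub_self]))).resolve_right hν', map_zero]
  have D1 : ∀ x y, c' (x * y) - κ (x * y) = c' x - κ x + e x * lam x * (c' y - κ y) +
      e x * u x * κ y * (lam φ - 1) := fun x y => by
    rw [d1.mul, κ1.mul]
    simp only [MonoidHom.mul_apply, MonoidHom.one_apply]
    linear_combination (-(e x * κ y)) * hu x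
  have Do : ∀ (K : Ideal V) (n : ℕ), IsOpen {x | c' x - κ x ∈ K ⊔ m ^ n} := fun K n =>
    open_of ((d1.cts n).inter (κ1.cts n)) ⟨by simp [d1.one], by simp [κ1.one]⟩ fun x hx y hy => by
      show c' (x * y) - κ (x * y) ∈ K ⊔ m ^ n
      rw [D1]
      exact add_mem (add_mem hx (Ideal.mem_sup_right (Ideal.mul_mem_left _ _
        ((m ^ n).sub_mem hy.1 hy.2)))) (Ideal.mem_sup_right (Ideal.mul_mem_right _ _
          (Ideal.mul_mem_left _ _ hy.2)))
  have D2 : ∀ x, c' x - κ x ∈ Ideal.span {lam φ - 1} := fun x => mem_of_sup fun n =>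
    nak h.gen h2 (chi_red h he h2 hl) (c := fun x => c' x - κ x) (fun x y => by
      rw [D1, add_sub_cancel_left]
      exact Ideal.mul_mem_left _ _ (Ideal.mem_span_singleton_self _)) (Do _)
      (by simp [d1.one, κ1.one]) (fun j => by simp [κ2]) n x
  choose z hz using fun x => Ideal.mem_span_singleton'.1 (D2 x)
  have z2 : ∀ x y, π (z (x * y)) = π (z x) + π (z y) + algebraMap _ _ (a 2 x * a 1 y) :=
    fun x y => by
    have : z (x * y) = z x + e x * lam x * z y + e x * u x * κ y := mul_right_cancel₀ hν' (by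
      rw [hz, D1, ← hz, ← hz]; ring)
    simp only [this, map_add, map_mul, r2, r3, r4, κ3, cst, one_mul]
  have zo := co_div hν' hz (fun n => by simpa using Do ⊥ n) 1
  have z3 : z 1 = 0 := (mul_eq_zero.1 ((hz 1).trans (by simp [d1.one, κ1.one]))).resolve_right hν'
  obtain ⟨f, hf⟩ : ∃ f : Module.Dual (ZMod 2) (ResidueField V), f 1 ≠ 0 := by
    by_contra hn
    push Not at hn
    exact one_ne_zero ((Module.forall_dual_apply_eq_zero_iff (ZMod 2) _).1 hn)
  have f1 : ∀ t, f (algebraMap _ _ t) = t := fun t => by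
    rw [Algebra.algebraMap_eq_smul_one, map_smul, ((by decide : ∀ t : ZMod 2, t = 0 ∨ t = 1) _).resolve_left hf, smul_eq_mul,
      mul_one]
  refine h.cup ⟨fun x => f (π (z x)), lc_of (zo.inter ((h.hom 1).1.isOpen_fiber 0))
    ⟨by simp [z3], a1 1⟩ fun x y hy => ?_, fun x y => ?_⟩
  · rw [z2, show a 1 y = 0 from hy.2, mul_zero, map_zero, add_zero,
      show π (z y) = 0 from (residue_eq_zero_iff _).2 (by simpa using hy.1), add_zero]
  · beta_reduce
    rw [z2, map_add, map_add, f1]

end Vale.Agent.P022K.O2
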