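import Vale.Agent.P022K.O2.FamA

/-! P022K, block O2: row FAM. -/

set_option linter.all false

noncomputable section

namespace Vale.Agent.P022K.O2

open IsLocalRing MvPowerSeries Matrix
open Vale.Agent.P022 Vale.Agent.P022D
open Vale.Agent.P022D.L2b (M2)
open Vale.Agent.P022D.Core (PS)
open Vale.Agent.P022D.PA (Base)
open Vale.Agent.P022K.PL (Cf)
open Vale.Agent.P027M.S (Inert)
open Vale.Agent.P022D.W (dec)
open Vale.Agent.P022E.GW (Ov Fb)
open Vale.Agent.P022K.GW (Id)
open Vale.Agent.P022K.RT (Cg UFR cg_iff cg_one Sm Par)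
open Vale.Agent.P022K.RT.Or (pow_map Dr dz dz_dr dz_C dz_X)

variable {O τ : Type} [CommRing O] [IsDomain O] [IsDiscreteValuationRing O] [Cf O] [Fintype τ]
  {P : Id} {φ : dec P} {γ : Fin 3 → dec P} {a : Fin 3 → dec P → ZMod 2} {c : O}
  {d : dec P →* O} {g : τ → dec P} {L : τ → M2 O} {k : τ → O} {I : Ideal (PS O τ)}
  {f : dec P → M2 (PS O τ)}

/-- the determinant with values in an algebra -/
abbrev dA (A : Type) [CommRing A] [Algebra O A] (d : dec P →* O) : dec P →* A :=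
  (algebraMap O A).toMonoidHom.comp d

/-- all data -/
structure Ct (φ : dec P) (γ : Fin 3 → dec P) (a : Fin 3 → dec P → ZMod 2) (c : O)
    (d : dec P →* O) (g : τ → dec P) (L : τ → M2 O) (k : τ → O) (I : Ideal (PS O τ))
    (f : dec P → M2 (PS O τ)) (q : dec P →* PS O (Fin 3)) (b : dec P → PS O (Fin 3)) : Prop where
  ar : Ar P φ γ a
  two : (2 : O) ∈ maximalIdeal O
  cyc : Cyc P d
  nu : Nu c (a 2) d g L k I f
  ur : Ur P φ q
  frb : q φ = 3 + X 0
  co : Co (dA (PS O (Fin 3)) d * iv q : dec P →* PS O (Fin 3)) b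
  b0 : b (γ 0) = X 1
  b2 : b (γ 2) = C c + X 2
  red : ∀ x, b x - C c * ((a 2 x).val : PS O (Fin 3)) ∈ maximalIdeal (PS O (Fin 3))

theorem two_mem {A : Type} [CommRing A] [IsLocalRing A] [Algebra O A]
    (h2 : (2 : O) ∈ maximalIdeal O) (hO : ∀ o ∈ maximalIdeal O, algebraMap O A o ∈ maximalIdeal A) :
    (2 : A) ∈ maximalIdeal A := by simpa only [map_ofNat] using hO 2 h2

theorem ex_ct (ufr : UFR) (hP : Ov 2 P) (hφ : Fb 2 P φ) (h : Ar P φ γ a)
    (h2 : (2 : O) ∈ maximalIdeal O) (hd : Cyc P d) (N : Nu c (a 2) d g L k I f) :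
    ∃ q b, Ct φ γ a c d g L k I f q b := by
  haveI := PL.base_ps O (Fin 3)
  have h2' : (2 : PS O (Fin 3)) ∈ maximalIdeal _ := two_mem h2 fun o ho => RT.Lu.C_max ho
  obtain ⟨q, q1, q2⟩ := ex_ur ufr hP hφ (A := PS O (Fin 3)) (μ := 3 + X 0) (by
    convert add_mem h2' (RT.Lu.X_max 0) using 1
    ring)
  obtain ⟨b, b', b1, b2, b3, b4, b5, b6, -, b8⟩ := ex_val h (e := dA (PS O (Fin 3)) d) h2'
    (hd.map (algebraMap O _)) (q1.iv h)
  refine ⟨q, _, h, h2, hd, N, q1, q2, b1.lin b2 (X 1) (C c + X 2), by simp [b3, b5],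
    by simp [b4, b6], fun x => ?_⟩
  have := add_mem (add_mem (Ideal.mul_mem_right (b x) _ (RT.Lu.X_max (O := O) (1 : Fin 3)))
    (Ideal.mul_mem_right (b' x) _ (RT.Lu.X_max (O := O) (2 : Fin 3))))
    (Ideal.mul_mem_left _ (C c) (b8 x))
  convert this using 1
  ring

/-- the coordinates -/
def crd (L : τ → M2 O) (k : τ → O) {A : Type} [CommRing A] [Algebra O A] (t : τ) (M : M2 A) : A :=
  ((L t).map (algebraMap O A) * M).trace - algebraMap O A (k t)

theorem crd_map {A B : Type} [CommRing A] [Algebra O A] [CommRing B] [Algebra O B] (η : A →+* B)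
    (h : ∀ o, η (algebraMap O A o) = algebraMap O B o) (t : τ) (M : M2 A) :
    η (crd L k t M) = crd L k t (M.map η) := by
  simp [crd, trace_fin_two, Matrix.mul_apply, Fin.sum_univ_two, h]

variable {q : dec P →* PS O (Fin 3)} {b : dec P → PS O (Fin 3)}
  (h : Ct φ γ a c d g L k I f q b)

include h

theorem Ct.crd {A : Type} [CommRing A] [Algebra O A] (y : PS O τ →ₐ[O] A) (hy : ∀ u ∈ I, y u = 0)
    (t : τ) : y (X t) = crd L k t ((f (g t)).map y) := by
  have h1 := hy _ (h.nu.crd t)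
  rw [map_sub, sub_eq_zero] at h1
  exact h1.symm.trans (crd_map (L := L) (k := k) y.toRingHom y.commutes t (f (g t)))

/-- the universal triangular representation -/
def Ct.T : dec P →* M2 (PS O (Fin 3)) := trH (dA _ d) q b h.co.mul

theorem Ct.T_red {A : Type} [CommRing A] (π : PS O (Fin 3) →+* A)
    (hπ : ∀ z ∈ maximalIdeal (PS O (Fin 3)), π z = 0) (x : dec P) :
    (h.T x).map π = !![1, π (C c) * ((a 2 x).val : A); 0, 1] := by
  have e : ∀ {u v}, u - v ∈ maximalIdeal (PS O (Fin 3)) → π u = π v := fun hz => by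
    simpa [sub_eq_zero] using hπ _ hz
  have h2 : (2 : PS O (Fin 3)) ∈ maximalIdeal _ := two_mem h.two fun o ho => RT.Lu.C_max ho
  have e1 : ∀ x, π (q x) = 1 := fun x => (e (h.ur.all h.ar x)).trans (map_one π)
  have e2 : π (dA _ d x) = 1 := (e ((h.cyc.map (algebraMap O _)).red h.ar h2 x)).trans (map_one π)
  show (tr _ _ _ x).map π = _
  rw [tr_map, tr]
  simp only [e1, e2, e (h.red x), map_mul, map_natCast, mul_one]

theorem Ct.lift {A : Type} [CommRing A] [Base A] [Algebra O A] (θ : PS O (Fin 3) →ₐ[O] A)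
    (hθ : ∀ z ∈ maximalIdeal _, θ z ∈ maximalIdeal A) {s l : A} (hs : s ∈ maximalIdeal A)
    (hl : l ∈ maximalIdeal A) : ∃ ψ : PS O τ →ₐ[O] A, (∀ t, ψ (X t) ∈ maximalIdeal A) ∧
      (∀ v ∈ I, ψ v = 0) ∧ ∀ x, (f x).map ψ = cj s l ((h.T x).map θ) := by
  have h2 : (2 : PS O (Fin 3)) ∈ maximalIdeal _ := two_mem h.two fun o ho => RT.Lu.C_max ho
  refine h.nu.ex A (cjH θ.toRingHom s l h.T) (fun o ho => θ.commutes o ▸ hθ _ (RT.Lu.C_max ho))
    (fun n => cg_open _ _ (tr_open h.ar h2 (h.cyc.map (algebraMap O _)) h.ur h.co n)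
      (fun i j => by rw [show tr (dA _ d) q b 1 = 1 from map_one h.T]; simp) fun x hx => ?_)
    (fun x => ?_) fun x => ?_
  · have : ((h.T x).map θ.toRingHom).map (Ideal.Quotient.mk (maximalIdeal A ^ n)) = 1 := by
      refine cg_one.1 fun i j => ?_
      have := pow_map θ.toRingHom hθ n _ (hx i j)
      rw [map_sub] at this
      rw [← Matrix.map_one _ (map_zero θ.toRingHom) (map_one _)]
      exact this
    exact cg_one.2 ((cj_map _ _ _ _).trans (by rw [this, cj_one]))
  · refine cg_iff.2 ((cj_map _ _ _ _).trans ?_)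
    rw [Ideal.Quotient.eq_zero_iff_mem.2 hs, Ideal.Quotient.eq_zero_iff_mem.2 hl, cj_zero,
      Matrix.map_map, ← RingHom.coe_comp, h.T_red ((Ideal.Quotient.mk _).comp θ.toRingHom)
        fun z hz => Ideal.Quotient.eq_zero_iff_mem.2 (hθ z hz), map_two]
    simp only [map_one, map_zero, map_mul, map_natCast, ← θ.commutes]
    rfl
  · show (cj s l _).det = _
    rw [cj_det, ← RingHom.mapMatrix_apply, ← RingHom.map_det]
    exact (congrArg θ (tr_det _ q b x)).trans (θ.commutes _)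

/-- the ring of the big family -/
abbrev C5 (O : Type) [CommRing O] : Type := MvPowerSeries (Fin 2) (PS O (Fin 3))

variable {ψ : PS O τ →ₐ[O] C5 O} (hI : ∀ v ∈ I, ψ v = 0)
  (hψ : ∀ x, (f x).map ψ = cj (X 0) (X 1) ((h.T x).map C))

include hI hψ

theorem Ct.kill {A : Type} [CommRing A] [hA : Base A] [Algebra O A] (θ : PS O (Fin 3) →ₐ[O] A)
    {s l : A} (hs : s ∈ maximalIdeal A)
    (hl : l ∈ maximalIdeal A) (y : PS O τ →ₐ[O] A) (y1 : ∀ t, y (X t) ∈ maximalIdeal A)
    (y2 : ∀ v ∈ I, y v = 0) (y3 : ∀ x, (f x).map y = cj s l ((h.T x).map θ)) (u : PS O τ)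
    (hu : ψ u = 0) : y u = 0 := by
  have := hA.cpl
  obtain ⟨κ, κ1, κ2⟩ := NR.exists_ev (maximalIdeal A) θ.toRingHom ![s, l] fun i => by
    fin_cases i <;> assumption
  have κ3 : ∀ o, κ (algebraMap O (C5 O) o) = algebraMap O A o := fun o => by
    rw [MvPowerSeries.algebraMap_apply, κ1]
    exact θ.commutes o
  have e : y.toRingHom = κ.comp ψ.toRingHom := NR.ev_ext (maximalIdeal A)
    (fun o => (y.commutes o).trans ((κ3 o).symm.trans (congrArg κ (ψ.commutes o).symm)))
    (fun t => by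
      show y (X t) = κ (ψ (X t))
      rw [h.crd y y2, h.crd ψ hI, crd_map κ κ3, hψ, y3, cj_map, κ2, κ2, Matrix.map_map]
      exact congrArg (fun η => O2.crd L k t (cj s l ((h.T (g t)).map η))) (funext κ1).symm) y1
  exact (DFunLike.congr_fun e u).trans ((congrArg κ hu).trans (map_zero κ))

theorem Ct.killp (hc : c = 0) (hm : ∀ t, ψ (X t) ∈ maximalIdeal (C5 O)) {A : Type} [CommRing A]
    [Base A] [Algebra O A] (θ : PS O (Fin 3) →ₐ[O] A)
    (hθ : ∀ z ∈ maximalIdeal _, θ z ∈ maximalIdeal A) (s l : A) (y : PS O τ →ₐ[O] A)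
    (y2 : ∀ v ∈ I, y v = 0) (y3 : ∀ x, (f x).map y = cj s l ((h.T x).map θ)) (u : PS O τ)
    (hu : ψ u = 0) : y u = 0 := by
  let A0 := PS O (Fin 3)
  let Q : τ → MvPolynomial (Fin 2) A0 := fun t => O2.crd L k t
    (cj (MvPolynomial.X 0) (MvPolynomial.X 1) ((h.T (g t)).map MvPolynomial.C))
  have Q1 : ∀ t, ψ (X t) = (Q t : C5 O) := fun t => by
    have := crd_map (L := L) (k := k)
      (MvPolynomial.coeToMvPowerSeries.ringHom (σ := Fin 2) (R := A0)) (fun o => by
        rw [MvPolynomial.coeToMvPowerSeries.ringHom_apply, MvPolynomial.algebraMap_apply,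
          MvPolynomial.coe_C]
        exact (MvPowerSeries.algebraMap_apply ..).symm) t (cj (MvPolynomial.X 0) (MvPolynomial.X 1) ((h.T (g t)).map MvPolynomial.C))
    rw [h.crd ψ hI, hψ]
    refine Eq.trans ?_ this.symm
    rw [cj_map, Matrix.map_map]
    simp only [MvPolynomial.coeToMvPowerSeries.ringHom_apply, MvPolynomial.coe_X]
    exact congrArg (fun η => O2.crd L k t (cj (X 0) (X 1) ((h.T (g t)).map η)))
      (funext fun z => (MvPolynomial.coe_C z).symm)
  refine pf O τ (Fin 2) A0 A (maximalIdeal A0) (maximalIdeal A) Q ψ θ ![s, l] y (fun t m => ?_) Q1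
    hθ (fun z hz => mem_of_sup (K := ⊥) fun n => Ideal.mem_sup_right (hz n)) (fun t => ?_) u hu
  · let π := Ideal.Quotient.mkₐ O (maximalIdeal A0)
    let A1 := MvPolynomial (Fin 2) (A0 ⧸ maximalIdeal A0)
    have e1 : MvPolynomial.map π.toRingHom (Q t) = MvPolynomial.C (O2.crd L k t 1) := by
      refine (crd_map (L := L) (k := k) (A := MvPolynomial (Fin 2) A0) (B := A1)
        (MvPolynomial.map π.toRingHom)
        (fun o => by
          rw [MvPolynomial.algebraMap_apply, MvPolynomial.map_C, MvPolynomial.algebraMap_apply]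
          rfl) t _).trans (Eq.trans ?_ (crd_map (L := L) (k := k) (B := A1) MvPolynomial.C
            (fun o => (MvPolynomial.algebraMap_apply ..).symm) t 1).symm)
      refine congrArg (O2.crd L k t) ((cj_map (A := MvPolynomial (Fin 2) A0) (B := A1) _ _ _
        _).trans ?_)
      have e0 := h.T_red (A := A1) ((MvPolynomial.map π.toRingHom).comp MvPolynomial.C)
        (fun z hz => (MvPolynomial.map_C _ z).trans (by
          rw [show π.toRingHom z = 0 from Ideal.Quotient.eq_zero_iff_mem.2 hz, map_zero])) (g t)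
      rw [show (C c : PS O (Fin 3)) = 0 by rw [hc, map_zero], map_zero, zero_mul,
        ← Matrix.one_fin_two] at e0
      exact (congrArg (cj _ _) e0).trans ((cj_one _ _).trans
        (Matrix.map_one _ (map_zero _) (map_one _)).symm)
    have e2 : ∀ m, π.toRingHom ((Q t).coeff m) = MvPolynomial.coeff m (MvPolynomial.C
        (O2.crd L k t 1) : MvPolynomial (Fin 2) _) := fun m => by
      rw [← e1, MvPolynomial.coeff_map]
    have e3 : (Q t).coeff 0 ∈ maximalIdeal A0 := by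
      have := (CA.Cpl.mem_max_iff _).1 (hm t)
      rwa [Q1, ← coeff_zero_eq_constantCoeff_apply, MvPolynomial.coeff_coe] at this
    by_cases m0 : 0 = m
    · exact m0 ▸ e3
    · exact Ideal.Quotient.eq_zero_iff_mem.1 ((e2 m).trans (by
        rw [MvPolynomial.coeff_C, if_neg m0]))
  · have := crd_map (L := L) (k := k) (MvPolynomial.eval₂Hom (θ : A0 →+* A) ![s, l]) (fun o => by
        rw [MvPolynomial.algebraMap_apply, MvPolynomial.eval₂Hom_C]
        exact θ.commutes o)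
      t (cj (MvPolynomial.X 0) (MvPolynomial.X 1) ((h.T (g t)).map MvPolynomial.C))
    rw [h.crd y y2, y3]
    refine Eq.trans ?_ this.symm
    rw [cj_map, Matrix.map_map, MvPolynomial.eval₂Hom_X', MvPolynomial.eval₂Hom_X']
    exact congrArg (fun η => O2.crd L k t (cj s l ((h.T (g t)).map η)))
      (funext fun z => (MvPolynomial.eval₂Hom_C _ _ z).symm)

omit hI hψ

/-- the representation at a point -/
def Ct.rep {A : Type} [CommRing A] [Algebra O A] (y : PS O τ →ₐ[O] A) (hy : ∀ u ∈ I, y u = 0) :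
    dec P →* M2 A where
  toFun x := (f x).map y
  map_one' := Matrix.ext fun i j => by
    have := hy _ (h.nu.one i j)
    rw [map_sub, sub_eq_zero] at this
    exact this.trans (congrFun (congrFun (Matrix.map_one _ (map_zero y) (map_one y)) i) j)
  map_mul' x x' := Matrix.ext fun i j => by
    have := hy _ (h.nu.mul x x' i j)
    rw [map_sub, sub_eq_zero] at this
    exact this.trans (congrFun (congrFun (Matrix.map_mul (f := y.toRingHom)) i) j)

/-- an ordinary point is a member of the family -/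
theorem Ct.pt {V : Type} [CommRing V] [IsDomain V] [IsDiscreteValuationRing V] [Cf V]
    [Algebra O V] (hc : c = 0 ∨ c = 1) (y : PS O τ →ₐ[O] V)
    (y1 : ∀ u ∈ maximalIdeal (PS O τ), y u ∈ maximalIdeal V) (y2 : ∀ u ∈ I, y u = 0)
    (ho : Ord P φ fun x => (f x).map y) : ∃ (θ : PS O (Fin 3) →ₐ[O] V) (s l : V),
      (∀ z ∈ maximalIdeal _, θ z ∈ maximalIdeal V) ∧
      (c = 0 ∨ s ∈ maximalIdeal V ∧ l ∈ maximalIdeal V) ∧
      ∀ x, (f x).map y = cj s l ((h.T x).map θ) := by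
  haveI := RT.Or.base_cf V
  obtain ⟨w, α, w0, α0, w1, w2⟩ := ho
  let m := maximalIdeal V
  let π := Ideal.Quotient.mk m
  let ρ := h.rep y y2
  have hO : ∀ o ∈ maximalIdeal O, algebraMap O V o ∈ m := fun o ho =>
    y.commutes o ▸ y1 _ (RT.Lu.C_max ho)
  have h2 := two_mem h.two hO
  have rd : ∀ x, (ρ x).map π = !![1, π (algebraMap O V c) * ((a 2 x).val : V ⧸ m); 0, 1] :=
    fun x => by
    have : (ρ x).map π = ((!![1, C c * ((a 2 x).val : PS O τ); 0, 1] : M2 _).map
        y.toRingHom).map π := Matrix.ext fun i j => Ideal.Quotient.eq.2 (by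
      have := y1 _ (h.nu.red x i j)
      rwa [map_sub] at this)
    rw [this, map_two, map_two]
    simp only [map_one, map_zero, map_mul, map_natCast, ← y.commutes]
    rfl
  obtain ⟨s, l, t, hw, hs⟩ : ∃ s l t : V, w = t • ![-l, 1 + s * l] ∧ (s = 0 ∨ l = 1) := by
    rcases ValuationRing.dvd_total (w 1) (w 0) with ⟨r, e⟩ | ⟨r, e⟩
    · exact ⟨0, -r, w 1, by ext i; fin_cases i <;> simp [e], .inl rfl⟩
    · exact ⟨-1 - r, 1, -w 0, by ext i; fin_cases i <;> simp [e] <;> ring, .inr rfl⟩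
  have t0 : t ≠ 0 := fun e => w0 (by rw [hw, e, zero_smul])
  have eig : ∀ x (β : V), w ᵥ* ρ x = β • w → ![-l, 1 + s * l] ᵥ* ρ x = β • ![-l, 1 + s * l] :=
    fun x β e => by
    rw [hw, smul_vecMul, smul_comm] at e
    exact smul_right_injective _ t0 e
  let ρ' : dec P →* M2 V :=
    { toFun := fun x => gi s l * ρ x * ga s l
      map_one' := by rw [map_one, mul_one, gi_ga]
      map_mul' := fun x x' => by
        have : gi s l * ρ x * ga s l * (gi s l * ρ x' * ga s l) =
            gi s l * ρ x * (ga s l * gi s l) * ρ x' * ga s l := by simp only [mul_assoc]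
        rw [this, ga_gi, mul_one, map_mul, mul_assoc _ (ρ x)] }
  have row : ∀ x (β : V), w ᵥ* ρ x = β • w → ρ' x 1 0 = 0 ∧ ρ' x 1 1 = β := fun x β e => by
    have e0 := congrFun (eig x β e) 0
    have e1 := congrFun (eig x β e) 1
    simp [vecMul, dotProduct, Fin.sum_univ_two] at e0 e1
    constructor <;> simp [ρ', ga, gi, Matrix.mul_apply, vecMul, dotProduct, Fin.sum_univ_two]
    · linear_combination (1 + s * l) * e0 + l * e1
    · linear_combination s * e0 + e1
  have sl : c = 0 ∨ s ∈ m ∧ l ∈ m := hc.imp id fun e => by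
    have e0 := congrFun (eig φ α w2) 0
    have e1 := congrFun (eig φ α w2) 1
    have r := fun i j => congrFun (congrFun (rd φ) i) j
    have r0 := r 0 0
    have r1 := r 0 1
    have r2 := r 1 0
    have r3 := r 1 1
    have v1 : (1 : ZMod 2).val = 1 := rfl
    simp [vecMul, dotProduct, Fin.sum_univ_two, e, h.ar.frb, v1] at e0 e1 r0 r1 r2 r3
    have e2 := congrArg π e0
    have e3 := congrArg π e1
    simp only [map_add, map_mul, map_neg, map_one, r0, r1, r2, r3] at e2 e3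
    have e4 : l ∈ m := (maximalIdeal.isMaximal V).isPrime.mem_of_pow_mem 2
      (Ideal.Quotient.eq_zero_iff_mem.1 (by
        show π _ = 0
        rw [map_pow]
        linear_combination (-π l) * e3 - (1 + π s * π l) * e2))
    refine ⟨?_, e4⟩
    rcases hs with rfl | rfl
    · exact zero_mem _
    · exact ((maximalIdeal.isMaximal V).ne_top ((Ideal.eq_top_iff_one _).2 e4)).elim
  have rd' : ∀ x, (ρ' x).map π = !![1, π (algebraMap O V c) * ((a 2 x).val : V ⧸ m); 0, 1] :=
    fun x => by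
    show (gi s l * ρ x * ga s l).map π = _
    rw [Matrix.map_mul, Matrix.map_mul, rd]
    rcases sl with e | ⟨e1, e2⟩
    · rw [e, map_zero, map_zero, zero_mul, ← Matrix.one_fin_two, mul_one, ← Matrix.map_mul, gi_ga,
        Matrix.map_one _ (map_zero _) (map_one _)]
    · have e3 : π s = 0 := Ideal.Quotient.eq_zero_iff_mem.2 e1
      have e4 : π l = 0 := Ideal.Quotient.eq_zero_iff_mem.2 e2
      simp [ga, gi, map_two, e3, e4, ← Matrix.one_fin_two]
  have op : ∀ n : ℕ, IsOpen {x | Cg (m ^ n) (ρ' x) 1} := fun n =>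
    cg_open ρ' _ (h.nu.opn n) (fun i j => Ideal.mem_sup_left (h.nu.one i j)) fun x hx => by
      have : (ρ x).map (Ideal.Quotient.mk (m ^ n)) = 1 := cg_one.1 fun i j => by
        obtain ⟨u, hu, v, hv, e⟩ := Submodule.mem_sup.1 (hx i j)
        have := pow_map y.toRingHom y1 n v hv
        rw [← Matrix.map_one _ (map_zero y.toRingHom) (map_one _)]
        show y.toRingHom _ - y.toRingHom _ ∈ _
        rwa [← map_sub, ← e, map_add, show y.toRingHom u = 0 from y2 u hu, zero_add]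
      refine cg_one.2 ?_
      show (gi s l * ρ x * ga s l).map _ = _
      rw [Matrix.map_mul, Matrix.map_mul, this, mul_one, ← Matrix.map_mul, gi_ga,
        Matrix.map_one _ (map_zero _) (map_one _)]
  have ml : ∀ x x' i j, ρ' (x * x') i j = ρ' x i 0 * ρ' x' 0 j + ρ' x i 1 * ρ' x' 1 j :=
    fun x x' i j => by rw [map_mul, Matrix.mul_apply, Fin.sum_univ_two]
  have w1' : ∀ i : dec P, Inert P i → w ᵥ* ρ i = (1 : V) • w := fun i hi =>
    (w1 i hi).trans (one_smul _ _).symm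
  have z : ∀ x, ρ' x 1 0 = 0 := fun x => mem_of_sup (K := ⊥) fun n => Ideal.mem_sup_right
    (h.ar.ind (p := fun x => ρ' x 1 0 ∈ m ^ n) (fun x x' p p' => by
      rw [ml]
      exact add_mem (Ideal.mul_mem_right _ _ p) (Ideal.mul_mem_left _ _ p'))
      (RT.pm (Ideal.Quotient.mk (m ^ n)) ρ').ker (by
        convert op n using 1
        exact Set.ext fun x => cg_one.symm)
      (fun u hu => by simpa using cg_one.2 hu 1 0) (by rw [(row φ α w2).1]; exact zero_mem _)
      (fun i hi => by rw [(row i 1 (w1' i hi)).1]; exact zero_mem _) x)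
  let q' : dec P →* V :=
    { toFun := fun x => ρ' x 1 1
      map_one' := by simp
      map_mul' := fun x x' => by rw [ml, z, zero_mul, zero_add] }
  have ent : ∀ x i j, π (ρ' x i j) = _ := fun x i j => congrFun (congrFun (rd' x) i) j
  have q1 : ∀ x, π (q' x) = 1 := fun x => ent x 1 1
  have uq : Ur P φ q' := ⟨fun n => chr_open _ _ (op n) (fun i j => by simp) fun x hx =>
    hx 1 1, fun i hi => (row i 1 (w1' i hi)).2,
    Ideal.Quotient.eq.1 ((q1 φ).trans (map_one π).symm)⟩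
  have dt : ∀ x, ρ' x 0 0 = dA V d x * q' x⁻¹ := fun x => by
    have e1 : (ρ' x).det = algebraMap O V (d x) := by
      show (gi s l * ρ x * ga s l).det = _
      rw [det_mul, det_mul, mul_right_comm, ← det_mul, gi_ga, det_one, one_mul]
      have := y2 _ (h.nu.det x)
      rw [map_sub, sub_eq_zero] at this
      exact (y.toRingHom.map_det _).symm.trans (this.trans (y.commutes _))
    rw [det_fin_two, z, mul_zero, sub_zero] at e1
    show _ = algebraMap O V (d x) * _
    rw [← e1, mul_assoc, mul_comm (ρ' x 1 1)]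
    exact (mul_one _).symm.trans (congrArg _ (inv_mul q' x).symm)
  have cb : Co (dA V d * iv q' : dec P →* V) fun x => ρ' x 0 1 * q' x⁻¹ := by
    have mu : ∀ x x', ρ' (x * x') 0 1 * q' (x * x')⁻¹ = ρ' x 0 1 * q' x⁻¹ +
        (dA V d * iv q' : dec P →* V) x * (ρ' x' 0 1 * q' x'⁻¹) := fun x x' => by
      rw [ml, dt, _root_.mul_inv_rev, map_mul]
      show (_ + _ * q' x') * _ = _ + dA V d x * (q' x⁻¹ * q' x⁻¹) * _
      linear_combination (ρ' x 0 1 * q' x⁻¹) * inv_mul q' x'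
    refine ⟨mu, fun n => open_of (op n) (fun i j => by simp) fun x hx x' hx' => ?_⟩
    show ρ' (x * x') 0 1 * q' (x * x')⁻¹ ∈ m ^ n
    rw [mu]
    exact add_mem hx (Ideal.mul_mem_left _ _ (Ideal.mul_mem_right _ _ (by simpa using hx' 0 1)))
  have b1 : ∀ x, π (ρ' x 0 1 * q' x⁻¹) = π (algebraMap O V c) * ((a 2 x).val : V ⧸ m) :=
    fun x => by rw [map_mul, q1, mul_one]; exact ent x 0 1
  obtain ⟨θ, θ1, θ2⟩ := ev hO ![α - 3, ρ' (γ 0) 0 1 * q' (γ 0)⁻¹,
    ρ' (γ 2) 0 1 * q' (γ 2)⁻¹ - algebraMap O V c] fun i => by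
    fin_cases i
    · have := sub_mem uq.red h2
      rw [show q' φ = α from (row φ α w2).2] at this
      convert this using 1
      simp
      ring
    · exact Ideal.Quotient.eq_zero_iff_mem.1 ((b1 _).trans (by simp [h.ar.dual]))
    · exact Ideal.Quotient.eq.1 ((b1 _).trans (by
        rw [h.ar.dual, if_pos rfl, show (1 : ZMod 2).val = 1 from rfl, Nat.cast_one, mul_one]))
  have eq : θ.toRingHom.toMonoidHom.comp q = q' := (h.ur.map θ.toRingHom θ2).ext h.ar uq (by
    show θ (q φ) = ρ' φ 1 1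
    rw [h.frb, map_add, θ1, map_ofNat, (row φ α w2).2]
    simp)
  have eq' : ∀ x, θ (q x) = q' x := fun x => DFunLike.congr_fun eq x
  have ec : θ.toRingHom.toMonoidHom.comp (dA _ d * iv q) = dA V d * iv q' :=
    MonoidHom.ext fun x => by
      show θ (algebraMap O _ (d x) * (q x⁻¹ * q x⁻¹)) = algebraMap O V (d x) * (q' x⁻¹ * q' x⁻¹)
      rw [map_mul, map_mul, eq', θ.commutes]
  have cb' := h.co.map θ.toRingHom θ2
  rw [ec] at cb'
  have eb := unq P φ γ a h.ar V (dA V d) (iv q') _ h2 (h.cyc.map (algebraMap O V)) (uq.iv h.ar)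
    (fun e => α0 (by
      have e1 : q' φ⁻¹ * q' φ⁻¹ = 1 := e
      have e2 := inv_mul q' φ
      rw [show q' φ = α from (row φ α w2).2] at e2
      linear_combination (-α ^ 2) * e1 + (q' φ⁻¹ * α + 1) * e2))
    (cb'.lin cb 1 (-1)) (by
      show 1 * θ (b (γ 0)) + _ = 0
      rw [h.b0, θ1]
      simp) (by
      show 1 * θ (b (γ 2)) + _ = 0
      rw [h.b2, map_add, θ1, show θ (C c) = algebraMap O V c from θ.commutes c]
      simp)
  refine ⟨θ, s, l, θ2, sl, fun x => (cj_inv s l _).symm.trans (congrArg (cj s l) ?_)⟩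
  have e1 : θ (b x) = ρ' x 0 1 * q' x⁻¹ := by
    have : 1 * θ (b x) + -1 * (ρ' x 0 1 * q' x⁻¹) = 0 := eb x
    linear_combination this
  show ρ' x = (tr _ _ _ x).map θ.toRingHom
  rw [tr_map, tr, eta_fin_two (ρ' x), z, dt]
  show _ = !![θ (algebraMap O _ (d x)) * θ (q x⁻¹), θ (b x) * θ (q x); 0, θ (q x)]
  rw [θ.commutes, eq', eq', e1, mul_assoc, inv_mul, mul_one]
  rfl

/-- the tangent space at the base point -/
theorem Ct.sm [CharZero O] (hI : ∀ v ∈ I, ψ v = 0)
    (hψ : ∀ x, (f x).map ψ = cj (X 0) (X 1) ((h.T x).map C)) (y : PS O τ →ₐ[O] O)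
    (hJ : ∀ u, ψ u = 0 → y u = 0) (θ : PS O (Fin 3) →+* O)
    (θ1 : ∀ z ∈ maximalIdeal _, θ z ∈ maximalIdeal O) (θ2 : θ (X 0) = 0) (θ3 : ∀ o, θ (C o) = o)
    (y3 : ∀ x, (f x).map y = (h.T x).map θ) : Sm (RingHom.ker ψ) y 4 := by
  intro Z hZ
  obtain ⟨i0, hi0, d0⟩ := h.ar.i0 h.cyc h.two
  let u : Fin 4 → PS O τ := ![f i0 1 0, f φ 1 1, f (γ 0) 0 1, f (γ 2) 0 1]
  let Φ : (τ → O) →ₗ[O] (Fin 4 → O) :=
    { toFun := fun v j => RT.Lu.dr y.toRingHom v (u j)
      map_add' := fun v w => by ext j; simp [RT.Lu.dr, add_mul, Finset.sum_add_distrib]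
      map_smul' := fun o v => by ext j; simp [RT.Lu.dr, Finset.mul_sum, mul_assoc] }
  refine (LinearMap.finrank_le_finrank_of_injective (f := Φ.domRestrict Z)
    ((injective_iff_map_eq_zero _).2 fun v hv => Subtype.ext ?_)).trans (by simp)
  obtain ⟨D, hD, DJ, DC, DX, Dp, D0⟩ : ∃ D : PS O τ → O, Dr y.toRingHom D ∧
      (∀ w, ψ w = 0 → D w = 0) ∧ (∀ o, D (C o) = 0) ∧ (∀ t, D (X t) = v.1 t) ∧
      (∀ n, ∀ w ∈ maximalIdeal (PS O τ) ^ (n + 1), D w ∈ maximalIdeal O ^ n) ∧
      ∀ j, D (u j) = 0 :=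
    ⟨RT.Lu.dr y.toRingHom v.1, ⟨RT.Lu.dr_add _ _, RT.Lu.dr_mul _ _⟩, fun w hw => hZ v v.2 w hw,
      RT.Lu.dr_C _ _, RT.Lu.dr_X _ _, fun n => RT.Lu.dr_pow _ _ (RT.Or.pt_loc y) n,
      fun j => congrFun hv j⟩
  have Ds : ∀ w w', D (w - w') = D w - D w' := fun w w' => by
    rw [eq_sub_iff_add_eq, ← hD.add, sub_add_cancel]
  have DI : ∀ {w w'}, w - w' ∈ I → D w = D w' := fun hw => by
    have := DJ _ (hI _ hw)
    rwa [Ds, sub_eq_zero] at this
  let q1 : dec P →* O := θ.toMonoidHom.comp q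
  have uq : Ur P φ q1 := h.ur.map θ θ1
  have R : ∀ x, (f x).map y.toRingHom = !![d x * q1 x⁻¹, θ (b x) * q1 x; 0, q1 x] := fun x => by
    refine (y3 x).trans ((tr_map θ _ _ _ x).trans ?_)
    rw [tr, show θ (dA _ d x) = d x from θ3 _]
    rfl
  have R00 : ∀ x, y.toRingHom (f x 0 0) = d x * q1 x⁻¹ := fun x => congrFun (congrFun (R x) 0) 0
  have R10 : ∀ x, y.toRingHom (f x 1 0) = 0 := fun x => congrFun (congrFun (R x) 1) 0
  have R11 : ∀ x, y.toRingHom (f x 1 1) = q1 x := fun x => congrFun (congrFun (R x) 1) 1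
  have yC : ∀ o, y.toRingHom (C o) = o := fun o => y.commutes o
  have ml : ∀ x x' i j, D (f (x * x') i j) = D (f x i 0) * y.toRingHom (f x' 0 j) +
      y.toRingHom (f x i 0) * D (f x' 0 j) + (D (f x i 1) * y.toRingHom (f x' 1 j) +
      y.toRingHom (f x i 1) * D (f x' 1 j)) := fun x x' i j => by
    rw [DI (h.nu.mul x x' i j), Matrix.mul_apply, Fin.sum_univ_two, hD.add, hD.mul, hD.mul]
  have sm : ∀ n x, Cg (I ⊔ maximalIdeal (PS O τ) ^ (n + 1)) (f x) 1 → ∀ i j,
      D (f x i j) ∈ maximalIdeal O ^ n := fun n x hx i j => by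
    obtain ⟨w, hw, w', hw', e⟩ := Submodule.mem_sup.1 (hx i j)
    have e1 : D ((1 : M2 (PS O τ)) i j) = 0 := congrFun (congrFun hD.mone i) j
    rw [← sub_zero (D _), ← e1, ← Ds, ← e, hD.add, DJ w (hI w hw), zero_add]
    exact Dp n w' hw'
  have o1 : ∀ n, (1 : dec P) ∈ {x | Cg (I ⊔ maximalIdeal (PS O τ) ^ n) (f x) 1} :=
    fun n i j => Ideal.mem_sup_left (h.nu.one i j)
  have E : ∀ x j, ψ (f i0 1 0 * f x 0 j + (f i0 1 1 - C (d i0)) * f x 1 j) =
      C (q x) * ψ (![f i0 1 0, f i0 1 1 - C (d i0)] j) := fun x j => by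
    have e : ∀ x i j, ψ (f x i j) = cj (X 0) (X 1) ((h.T x).map C) i j := fun x i j =>
      congrFun (congrFun (hψ x) i) j
    have e0 : (h.T i0).map (C : _ →+* C5 O) = !![ψ (C (d i0)), C (b i0); 0, 1] := by
      refine (tr_map _ _ _ _ _).trans ?_
      rw [tr, h.ur.unr _ hi0, h.ur.unr _ (inert_inv hi0), map_one, mul_one, mul_one]
      congr! 4
      exact ((ψ.commutes _).trans (MvPowerSeries.algebraMap_apply ..)).symm
    have e1 : (h.T x).map (C : _ →+* C5 O) = tr _ _ _ x := tr_map _ _ _ _ _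
    rw [map_add, map_mul, map_mul, map_sub, e, e, e, e, e0, e1, tr, cj_eig]
    congr 1
    fin_cases j <;> simp [e, e0]
  have δ0 : 1 - d i0 ≠ 0 := sub_ne_zero.2 d0.symm
  have W1 : y.toRingHom (f i0 1 1 - C (d i0)) = 1 - d i0 := by
    rw [map_sub, R11, uq.unr _ hi0, yC]
  have c0 : D (f i0 1 0) = 0 := D0 0
  have c10 : ∀ x, D (f x 1 0) = 0 := fun x => by
    have := DJ ((f i0 1 0 * f x 0 0 + (f i0 1 1 - C (d i0)) * f x 1 0) * (f i0 1 1 - C (d i0)) -
      (f i0 1 0 * f x 0 1 + (f i0 1 1 - C (d i0)) * f x 1 1) * f i0 1 0) (by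
        rw [map_sub, map_mul, map_mul, E, E]
        simp only [Matrix.cons_val_zero, Matrix.cons_val_one]
        ring)
    simp only [Ds _ (_ * _), hD.mul, hD.add, map_add, map_mul, W1, R10, c0, mul_zero, zero_mul,
      zero_add, add_zero, sub_zero] at this
    simpa [δ0] using this
  have c11 : ∀ x, D (f x 1 1) = 0 := fun x => mem_of_sup (K := ⊥) fun n => Ideal.mem_sup_right (by
    have mu : ∀ x x', D (f (x * x') 1 1) = D (f x 1 1) * q1 x' + q1 x * D (f x' 1 1) :=
      fun x x' => by rw [ml, c10, R10, R11, R11]; ring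
    let S : Subgroup (dec P) :=
      { carrier := {x | D (f x 1 1) ∈ maximalIdeal O ^ n}
        mul_mem' := fun {x x'} p p' => by
          show D _ ∈ maximalIdeal O ^ n
          rw [mu]
          exact add_mem (Ideal.mul_mem_right _ _ p) (Ideal.mul_mem_left _ _ p')
        one_mem' := sm n 1 (o1 _) 1 1
        inv_mem' := fun {x} p => by
          have e1 := mu x⁻¹ x
          have p1 := Ideal.mul_mem_right (q1 x⁻¹) _ (sub_mem (sm n 1 (o1 _) 1 1)
            (Ideal.mul_mem_left _ (q1 x⁻¹) p))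
          rw [inv_mul_cancel] at e1
          show D _ ∈ maximalIdeal O ^ n
          convert p1 using 1
          rw [e1]
          linear_combination (-D (f x⁻¹ 1 1)) * inv_mul q1 x }
    refine h.ar.top S (Subgroup.isOpen_of_mem_nhds S (g := 1) (Filter.mem_of_superset
      ((h.nu.opn (n + 1)).mem_nhds (o1 _)) fun x hx => sm n x hx 1 1)) ?_ (fun i hi => ?_) x
    · show D (u 1) ∈ maximalIdeal O ^ n
      rw [D0]
      exact zero_mem _
    · have := DJ ((f i0 1 0 * f i 0 1 + (f i0 1 1 - C (d i0)) * f i 1 1) -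
        (f i0 1 1 - C (d i0))) (by
          rw [map_sub, E, h.ur.unr i hi]
          simp)
      rw [Ds, hD.add, hD.mul, hD.mul, c0, R10, R11, W1, uq.unr i hi] at this
      have e1 : (1 - d i0) * D (f i 1 1) = 0 := by linear_combination this
      show D _ ∈ maximalIdeal O ^ n
      rw [(mul_eq_zero.1 e1).resolve_left δ0]
      exact zero_mem _)
  have c00 : ∀ x, D (f x 0 0) = 0 := fun x => by
    have := DI (h.nu.det x)
    rw [DC, det_fin_two, Ds, hD.mul, hD.mul, c10, c11, R10, R11] at this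
    linear_combination q1 x⁻¹ * this - D (f x 0 0) * inv_mul q1 x
  have mu : ∀ x x', D (f (x * x') 0 1) * q1 (x * x')⁻¹ = D (f x 0 1) * q1 x⁻¹ +
      (d * iv q1 : dec P →* O) x * (D (f x' 0 1) * q1 x'⁻¹) := fun x x' => by
    rw [ml, c00, c11, R00, R11, _root_.mul_inv_rev, map_mul]
    show _ = _ + d x * (q1 x⁻¹ * q1 x⁻¹) * _
    linear_combination (D (f x 0 1) * q1 x⁻¹) * inv_mul q1 x'
  have c01 := unq P φ γ a h.ar O d (iv q1) (fun x => D (f x 0 1) * q1 x⁻¹) h.two h.cyc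
    (uq.iv h.ar) (fun e => by
      have e1 : q1 φ⁻¹ * q1 φ⁻¹ = 1 := e
      have e2 := inv_mul q1 φ
      rw [show q1 φ = 3 by
        show θ (q φ) = 3
        rw [h.frb, map_add, θ2, add_zero, map_ofNat]] at e2
      have e3 : (8 : O) = 0 := by linear_combination (-9) * e1 + (q1 φ⁻¹ * 3 + 1) * e2
      norm_num at e3)
    ⟨mu, fun n => open_of (h.nu.opn (n + 1)) (o1 _) fun x hx x' hx' => by
      show D (f (x * x') 0 1) * q1 (x * x')⁻¹ ∈ maximalIdeal O ^ n
      rw [mu]
      exact add_mem hx (Ideal.mul_mem_left _ _ (Ideal.mul_mem_right _ _ (sm n x' hx' 0 1)))⟩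
    (mul_eq_zero_of_left (D0 2) _) (mul_eq_zero_of_left (D0 3) _)
  have c01' : ∀ x, D (f x 0 1) = 0 := fun x => by
    have : D (f x 0 1) * q1 x⁻¹ = 0 := c01 x
    linear_combination q1 x * this - D (f x 0 1) * inv_mul q1 x
  funext t
  have := DJ _ (hI _ (h.nu.crd t))
  simpa [Ds, DC, DX, trace_fin_two, Matrix.mul_apply, Fin.sum_univ_two, hD.add, hD.mul, c00,
    c01', c10, c11] using this

omit h

theorem fam_of (ufr : UFR) : FAM := by
  intro O τ _ _ _ hO _ _ P φ γ a c d g L k I f hP hφ har h2 hd hc N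
  obtain ⟨q, b, h⟩ := ex_ct ufr hP hφ har h2 hd N
  haveI := PL.base_ps O (Fin 3)
  haveI := PL.base_ps O (Fin 4)
  haveI := RT.Or.base_cf O
  haveI : Base (C5 O) := by
    have := Base.fin (P := PS O (Fin 3))
    exact { cpl := CA.Cpl.isAdicCompleteV Base.cpl, fin := CA.Cpl.finite_residue }
  obtain ⟨ψ, ψ1, ψ2, ψ3⟩ := h.lift (A := C5 O)
    { (C : PS O (Fin 3) →+* C5 O) with
      commutes' := fun o => (MvPowerSeries.algebraMap_apply ..).symm }
    (fun z hz => RT.Lu.C_max hz) (RT.Lu.X_max 0) (RT.Lu.X_max 1)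
  obtain ⟨θ, θ1, θ2⟩ := ev (A := PS O (Fin 4)) (fun o ho => RT.Lu.C_max ho)
    (fun i : Fin 3 => X i.castSucc) fun i => RT.Lu.X_max _
  obtain ⟨χ, χ1, χ2, χ3⟩ := h.lift θ θ2 (zero_mem _) (RT.Lu.X_max 3)
  have kl := h.kill ψ2 ψ3 θ (zero_mem _) (RT.Lu.X_max 3) χ χ1 χ2 χ3
  let cc : PS O (Fin 4) →ₐ[O] O := { constantCoeff with commutes' := fun o => constantCoeff_C o }
  have cm : ∀ z ∈ maximalIdeal (PS O (Fin 4)), constantCoeff z ∈ maximalIdeal O := fun z =>
    (CA.Cpl.mem_max_iff z).1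
  have sm := h.sm ψ2 ψ3 (cc.comp χ) (fun u hu => (congrArg cc (kl u hu)).trans (map_zero cc))
    (constantCoeff.comp θ.toRingHom) (fun z hz => cm _ (θ2 z hz))
    ((congrArg constantCoeff (θ1 0)).trans (constantCoeff_X _))
    (fun o => (congrArg constantCoeff (θ.commutes o)).trans (constantCoeff_C o)) fun x => by
      refine (congrArg (fun M : M2 _ => M.map constantCoeff) (χ3 x)).trans
        ((cj_map _ _ _ _).trans ?_)
      rw [map_zero, constantCoeff_X, cj_zero]
      rfl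
  obtain ⟨t, e, mn⟩ := RT.Or.minor_of χ (fun t => cm _ (χ1 t)) fun w hw => by
    obtain ⟨i0, hi0, d0⟩ := har.i0 hd h2
    have hD := dz_dr w
    have Ds : ∀ u u', dz w (u - u') = dz w u - dz w u' := fun u u' => by
      rw [eq_sub_iff_add_eq, ← hD.add, sub_add_cancel]
    have en : ∀ x i j, dz w ((!![θ (dA _ d x) * θ (q x⁻¹) - θ (b x) * θ (q x) * X 3,
        θ (b x) * θ (q x); X 3 * (θ (dA _ d x) * θ (q x⁻¹) - θ (q x)) -
          X 3 * (X 3 * (θ (b x) * θ (q x))), θ (q x) + X 3 * (θ (b x) * θ (q x))] : M2 _) i j) =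
        0 := fun x i j => by
      rw [← cj_l, ← hw (f x i j)]
      exact congrArg (fun M : M2 _ => dz w (M i j)) ((χ3 x).trans
        (congrArg (cj 0 (X 3)) (tr_map θ.toRingHom _ _ _ x))).symm
    have w3 : w 3 = 0 := by
      have := en i0 1 0
      rw [h.ur.unr _ hi0, h.ur.unr _ (inert_inv hi0),
        show θ (dA _ d i0) = C (d i0) from θ.commutes _] at this
      simp [Ds, hD.mul, dz_X, sub_eq_zero, d0] at this
      exact this
    have dq : ∀ x, dz w (θ (q x)) = 0 := fun x => by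
      simpa [hD.add, hD.mul, dz_X, w3] using en x 1 1
    have db : ∀ x, dz w (θ (b x)) = 0 := fun x => by
      have e1 : dz w (θ (b x) * θ (q x)) = 0 := en x 0 1
      have e2 := congrArg (fun z => constantCoeff (θ z)) (inv_mul q x)
      rw [hD.mul, dq, mul_zero, add_zero] at e1
      simp only [map_mul, map_one] at e2
      linear_combination constantCoeff (θ (q x⁻¹)) * e1 - dz w (θ (b x)) * e2
    have w0 := dq φ
    have w1 := db (γ 0)
    have w2 := db (γ 2)
    rw [h.frb, map_add, θ1, hD.add, dz_X, map_ofNat, ← map_ofNat C 3, dz_C, zero_add] at w0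
    rw [h.b0, θ1, dz_X] at w1
    rw [h.b2, map_add, θ1, hD.add, dz_X, show θ (C c) = C c from θ.commutes c, dz_C,
      zero_add] at w2
    funext j
    fin_cases j
    exacts [w0, w1, w2, w3]
  obtain ⟨pa, u, u1, u2⟩ := RT.cmp O τ 4 4 (RingHom.ker ψ) χ (cc.comp χ) (fun _ => rfl) kl sm
    ⟨t, e, mn⟩
  refine ⟨RingHom.ker χ, pa, χ2, fun V _ _ _ _ _ _ y y1 y2 ho v hv => ?_⟩
  have hv' : ψ v = 0 := by
    have := u2 v hv
    rw [RingHom.mem_ker, map_mul] at this
    exact (mul_eq_zero.1 this).resolve_left fun e =>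
      u1 ((congrArg cc (kl u e)).trans (map_zero cc))
  haveI := RT.Or.base_cf V
  obtain ⟨η, s, l, η1, e | ⟨e1, e2⟩, η2⟩ := h.pt hc y y1 y2 ho
  · exact h.killp ψ2 ψ3 e ψ1 η η1 s l y y2 η2 v hv'
  · exact h.kill ψ2 ψ3 η e1 e2 y (fun t => y1 _ (RT.Lu.X_max t)) y2 η2 v hv'

end Vale.Agent.P022K.O2
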