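import Vale.Agent.P022K.O2.Coc

/-! P022K, block O2: triangular representations and their conjugates. -/

set_option linter.all false

noncomputable section

namespace Vale.Agent.P022K.O2

open IsLocalRing MvPowerSeries Matrix
open Vale.Agent.P022 Vale.Agent.P022D
open Vale.Agent.P022D.L2b (M2)
open Vale.Agent.P022D.Core (PS)
open Vale.Agent.P022D.PA (Base)
open Vale.Agent.P022K.PL (Cf)
open Vale.Agent.P027M.S (Inert)
open Vale.Agent.P022D.W (dec)
open Vale.Agent.P022E.GW (Ov Fb)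
open Vale.Agent.P022K.GW (Id)
open Vale.Agent.P022K.RT (Cg UFR cg_iff cg_one)
open Vale.Agent.P022K.RT.Or (pow_map)

section mat

variable {A B : Type} [CommRing A] [CommRing B]

/-- the change of basis -/
def ga (s l : A) : M2 A := !![1 + s * l, s; l, 1]

/-- its inverse -/
def gi (s l : A) : M2 A := !![1, -s; -l, 1 + s * l]

theorem ga_gi (s l : A) : ga s l * gi s l = 1 := by
  ext i j
  fin_cases i <;> fin_cases j <;> simp [ga, gi, Matrix.mul_apply, Fin.sum_univ_two] <;> ring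

theorem gi_ga (s l : A) : gi s l * ga s l = 1 := mul_eq_one_comm.1 (ga_gi s l)

theorem map_two (η : A →+* B) (a b c d : A) :
    (!![a, b; c, d] : M2 A).map η = !![η a, η b; η c, η d] := by
  ext i j
  fin_cases i <;> fin_cases j <;> rfl

/-- the conjugate -/
def cj (s l : A) (M : M2 A) : M2 A := ga s l * M * gi s l

theorem cj_map (η : A →+* B) (s l : A) (M : M2 A) :
    (cj s l M).map η = cj (η s) (η l) (M.map η) := by
  simp only [cj, ga, gi, Matrix.map_mul, map_two, map_add, map_mul, map_one, map_neg]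

theorem cj_mul (s l : A) (M N : M2 A) : cj s l (M * N) = cj s l M * cj s l N := by
  have : cj s l M * cj s l N = ga s l * M * (gi s l * ga s l) * N * gi s l := by
    simp only [cj, mul_assoc]
  rw [this, gi_ga, mul_one, cj, mul_assoc _ M]

theorem cj_one (s l : A) : cj s l 1 = 1 := by rw [cj, mul_one, ga_gi]

theorem cj_zero (M : M2 A) : cj 0 0 M = M := by
  have h1 : ga (0 : A) 0 = 1 := by simp [ga, Matrix.one_fin_two]
  have h2 : gi (0 : A) 0 = 1 := by simp [gi, Matrix.one_fin_two]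
  rw [cj, h1, h2, one_mul, mul_one]

theorem cj_det (s l : A) (M : M2 A) : (cj s l M).det = M.det := by
  rw [cj, det_mul, det_mul, mul_right_comm, ← det_mul, ga_gi, det_one, one_mul]

theorem cj_inv (s l : A) (M : M2 A) : cj s l (gi s l * M * ga s l) = M := by
  have : cj s l (gi s l * M * ga s l) = (ga s l * gi s l) * M * (ga s l * gi s l) := by
    simp only [cj, mul_assoc]
  rw [this, ga_gi, one_mul, mul_one]

theorem cj_eig (s l p β p' β' q' : A) (j : Fin 2) :
    cj s l !![p, β; 0, 1] 1 0 * cj s l !![p', β'; 0, q'] 0 j +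
      (cj s l !![p, β; 0, 1] 1 1 - p) * cj s l !![p', β'; 0, q'] 1 j =
    q' * ![cj s l !![p, β; 0, 1] 1 0, cj s l !![p, β; 0, 1] 1 1 - p] j := by
  fin_cases j <;> simp [cj, ga, gi, Matrix.mul_apply, Fin.sum_univ_two] <;> ring

theorem cj_l (l p β q : A) :
    cj 0 l !![p, β; 0, q] = !![p - β * l, β; l * (p - q) - l * (l * β), q + l * β] := by
  ext i j
  fin_cases i <;> fin_cases j <;> simp [cj, ga, gi, Matrix.mul_apply, Fin.sum_univ_two] <;> ring

variable {G : Type} [Group G]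

theorem inv_mul (q : G →* A) (x : G) : q x⁻¹ * q x = 1 := by
  rw [← map_mul, inv_mul_cancel, map_one]

/-- the inverse of the square -/
def iv (q : G →* A) : G →* A where
  toFun x := q x⁻¹ * q x⁻¹
  map_one' := by simp
  map_mul' x y := by rw [_root_.mul_inv_rev, map_mul]; ring

/-- triangular matrices -/
def tr (e q b : G → A) (x : G) : M2 A := !![e x * q x⁻¹, b x * q x; 0, q x]

theorem tr_map (η : A →+* B) (e q b : G → A) (x : G) :
    (tr e q b x).map η = tr (fun x => η (e x)) (fun x => η (q x)) (fun x => η (b x)) x := by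
  simp [tr, map_two]

theorem tr_det (e q : G →* A) (b : G → A) (x : G) : (tr e q b x).det = e x := by
  simp [tr, det_fin_two, mul_assoc, inv_mul]

/-- the triangular representation -/
def trH (e q : G →* A) (b : G → A) (h : ∀ x y, b (x * y) = b x + (e * iv q : G →* A) x * b y) :
    G →* M2 A where
  toFun := tr e q b
  map_one' := by
    have : b 1 = 0 := by simpa using h 1 1
    simp [tr, this, Matrix.one_fin_two]
  map_mul' x y := by
    ext i j
    fin_cases i <;> fin_cases j <;> simp [tr, Matrix.mul_apply, Fin.sum_univ_two, h, iv]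
    · ring
    · linear_combination (e x * q x⁻¹ * b y * q y) * inv_mul q x

/-- the conjugated representation -/
def cjH (η : A →+* B) (s l : B) (ρ : G →* M2 A) : G →* M2 B where
  toFun x := cj s l ((ρ x).map η)
  map_one' := by rw [map_one, Matrix.map_one _ (map_zero _) (map_one _), cj_one]
  map_mul' x y := by rw [map_mul, Matrix.map_mul, cj_mul]

theorem cg_open [TopologicalSpace G] [IsTopologicalGroup G] (ρ : G →* M2 A) (K : Ideal A)
    {U : Set G} (hU : IsOpen U) (h1 : 1 ∈ U) (h : ∀ x ∈ U, Cg K (ρ x) 1) :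
    IsOpen {x | Cg K (ρ x) 1} := open_of hU h1 fun x hx y hy => by
  have a1 := cg_one.1 hx
  have a2 := cg_one.1 (h y hy)
  exact cg_one.2 (by rw [map_mul, Matrix.map_mul, a1, a2, mul_one])

theorem chr_open [TopologicalSpace G] [IsTopologicalGroup G] (q : G →* A) (K : Ideal A)
    {U : Set G} (hU : IsOpen U) (h1 : 1 ∈ U) (h : ∀ x ∈ U, q x - 1 ∈ K) :
    IsOpen {x | q x - 1 ∈ K} :=
  Subgroup.isOpen_of_mem_nhds (cg q 1 K) (g := 1) (Filter.mem_of_superset (hU.mem_nhds h1) h)

end mat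

section ar

variable {P : Id} {φ : dec P} {γ : Fin 3 → dec P} {a : Fin 3 → dec P → ZMod 2}
  {A B : Type} [CommRing A] [CommRing B]

theorem inert_inv {i : dec P} (h : Inert P i) : Inert P (i⁻¹ : dec P) :=
  (H443.inP P).inv_mem (x := (i : GQ)) h

theorem Ur.iv [IsLocalRing A] (h : Ar P φ γ a) {q : dec P →* A} (hq : Ur P φ q) :
    Ur P φ (iv q) := by
  have e : ∀ (K : Ideal A) x, q x - 1 ∈ K → O2.iv q x - 1 ∈ K := fun K x hx => by
    have h1 : q x⁻¹ - 1 ∈ K := (O2.cg q 1 K).inv_mem hx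
    have := K.mul_mem_left (q x⁻¹ + 1) h1
    show q x⁻¹ * q x⁻¹ - 1 ∈ K
    convert this using 1
    ring
  exact ⟨fun n => chr_open _ _ (hq.cts n) (by simp) (e _), fun i hi => by
    show q i⁻¹ * q i⁻¹ = 1
    rw [hq.unr _ (inert_inv hi), mul_one], e _ _ hq.red⟩

theorem Ur.map [IsLocalRing A] [IsLocalRing B] {q : dec P →* A} (hq : Ur P φ q) (θ : A →+* B)
    (hθ : ∀ z ∈ maximalIdeal A, θ z ∈ maximalIdeal B) : Ur P φ (θ.toMonoidHom.comp q) :=
  ⟨fun n => chr_open _ _ (hq.cts n) (by simp) fun x hx => by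
    simpa using pow_map θ hθ n _ hx, fun i hi => by simp [hq.unr i hi],
    by simpa using hθ _ hq.red⟩

theorem Co.map [IsLocalRing A] [IsLocalRing B] {χ : dec P →* A} {b : dec P → A} (hb : Co χ b)
    (θ : A →+* B) (hθ : ∀ z ∈ maximalIdeal A, θ z ∈ maximalIdeal B) :
    Co (θ.toMonoidHom.comp χ) fun x => θ (b x) :=
  ⟨fun x y => by simp [hb.mul], fun n => open_of (hb.cts n) (by simp [hb.one]) fun x hx y hy => by
    show θ (b (x * y)) ∈ maximalIdeal B ^ n
    rw [hb.mul, map_add, map_mul]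
    exact add_mem hx (Ideal.mul_mem_left _ _ (pow_map θ hθ n _ hy))⟩

theorem ex_ur (ufr : UFR) (hP : Ov 2 P) (hφ : Fb 2 P φ) [Base A] {μ : A}
    (h : μ - 1 ∈ maximalIdeal A) : ∃ q : dec P →* A, Ur P φ q ∧ q φ = μ := by
  have hu : IsUnit μ := by
    by_contra hn
    exact (maximalIdeal.isMaximal A).ne_top ((Ideal.eq_top_iff_one _).2 (by
      simpa using (maximalIdeal A).sub_mem hn h))
  have hd : (!![μ, 0; 0, 1] : M2 A).det = μ := by simp [det_fin_two]
  obtain ⟨ρ, h1, h2, h3, -⟩ := (ufr 2 P φ hP hφ A).1 !![μ, 0; 0, 1]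
    ((Matrix.isUnit_iff_isUnit_det _).2 (hd.symm ▸ hu))
  have e : (detMonoidHom.comp ρ) φ = μ := by
    show (ρ φ).det = μ
    rw [h1, hd]
  refine ⟨detMonoidHom.comp ρ, ⟨fun n => chr_open _ _ (h3 n) (fun i j => by simp) fun x hx => ?_,
    fun i hi => ?_, e.symm ▸ h⟩, e⟩
  · show (ρ x).det - 1 ∈ _
    rw [← Ideal.Quotient.eq, RingHom.map_det, RingHom.mapMatrix_apply, cg_one.1 hx, det_one,
      map_one]
  · show (ρ i).det = 1
    rw [h2 i hi, det_one]

theorem Ar.ind (h : Ar P φ γ a) {p : dec P → Prop} (hm : ∀ x y, p x → p y → p (x * y))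
    (U : Subgroup (dec P)) (hU : IsOpen (U : Set (dec P))) (h0 : ∀ u ∈ U, p u) (h1 : p φ)
    (h2 : ∀ i : dec P, Inert P i → p i) (x : dec P) : p x := by
  obtain ⟨k, i, hi, u, hu, rfl⟩ := h.den U hU x
  refine hm _ _ (hm _ _ (h0 u hu) ?_) (h2 i hi)
  induction k with
  | zero => exact h0 _ (by simp)
  | succ k ih => rw [pow_succ]; exact hm _ _ ih h1

theorem Ar.i0 (h : Ar P φ γ a) [IsLocalRing A] [IsDomain A] [CharZero A] {d : dec P → A}
    (hd : Cyc P d) (h2 : (2 : A) ∈ maximalIdeal A) : ∃ i : dec P, Inert P i ∧ d i ≠ 1 := by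
  obtain ⟨i, hi, e⟩ := h.ram
  refine ⟨i, hi, fun h1 => ?_⟩
  obtain ⟨y, hy⟩ := Ideal.mem_span_singleton'.1 (hd i 2 3 e)
  have h3 : (2 : A) * (-(2 * y) - 1) = 0 := by
    rw [h1] at hy
    push_cast at hy
    linear_combination -hy
  have h4 := (mul_eq_zero.1 h3).resolve_left two_ne_zero
  exact h2 (IsUnit.of_mul_eq_one (-y) (by linear_combination h4))

theorem tr_open (h : Ar P φ γ a) [IsLocalRing A] {e q : dec P →* A} {b : dec P → A}
    (h2 : (2 : A) ∈ maximalIdeal A) (he : Cyc P e) (hq : Ur P φ q)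
    (hb : Co (e * iv q : dec P →* A) b) (n : ℕ) :
    IsOpen {x | Cg (maximalIdeal A ^ n) (tr e q b x) 1} :=
  cg_open (trH e q b hb.mul) _ (((he.cts h h2 n).inter (hq.cts n)).inter (hb.cts n))
    ⟨⟨by simp, by simp⟩, by simp [hb.one]⟩ fun x ⟨⟨h3, h4⟩, h5⟩ i j => by
      have h6 : q x⁻¹ - 1 ∈ maximalIdeal A ^ n := (cg q 1 _).inv_mem h4
      show tr e q b x i j - _ ∈ _
      fin_cases i <;> fin_cases j <;> simp [tr]
      · have := add_mem (Ideal.mul_mem_right (q x⁻¹) _ h3) h6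
        convert this using 1
        ring
      · exact Ideal.mul_mem_right _ _ h5
      · exact h4

end ar

/-- evaluation of power series -/
theorem ev {O σ A : Type} [CommRing O] [IsLocalRing O] [Fintype σ] [CommRing A] [hA : Base A]
    [Algebra O A] (hO : ∀ o ∈ maximalIdeal O, algebraMap O A o ∈ maximalIdeal A) (z : σ → A)
    (hz : ∀ i, z i ∈ maximalIdeal A) : ∃ θ : PS O σ →ₐ[O] A, (∀ i, θ (X i) = z i) ∧
      ∀ u ∈ maximalIdeal (PS O σ), θ u ∈ maximalIdeal A := by
  have := hA.cpl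
  obtain ⟨θ, h1, h2⟩ := NR.exists_ev (maximalIdeal A) (algebraMap O A) z hz
  exact ⟨{ θ with commutes' := h1 }, h2, RT.map_max θ (fun o ho => h1 o ▸ hO o ho)
    fun t => h2 t ▸ hz t⟩

end Vale.Agent.P022K.O2
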