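import Vale.Agent.P022K.RT.St
import Vale.Agent.P022D.L2.Defs

/-!
# P022K, block O2: the ordinary component of weight two at the prime two. Rows.
-/

set_option linter.all false

noncomputable section

namespace Vale.Agent.P022K.O2

open IsLocalRing MvPowerSeries NumberField Matrix
open Vale.Agent.P022
open Vale.Agent.P022D.L2b (M2)
open Vale.Agent.P022D.L2 (Coc Cup0)
open Vale.Agent.P022D.Core (PS)
open Vale.Agent.P022D.PA (Base)
open Vale.Agent.P022K.PL (Cf)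
open Vale.Agent.P027M.S (Inert)
open Vale.Agent.P022D.W (dec)
open Vale.Agent.P022E.GW (Ov Fb)
open Vale.Agent.P022K.GW (Id)
open Vale.Agent.P022K.RT (Cg Uni Par Pt UFR)

/-- `e` is the `2`-adic cyclotomic character -/
def Cyc {A : Type} [CommRing A] (P : Id) (e : dec P → A) : Prop :=
  ∀ (x : dec P) (n k : ℕ), (∀ ζ : Qb, ζ ^ 2 ^ n = 1 → (x : GQ) ζ = ζ ^ k) →
    e x - k ∈ Ideal.span {(2 : A) ^ n}

/-- an unramified quotient on which the Frobenius element `φ` acts by `α`, `α ^ 2 ≠ 1` -/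
def Ord {A : Type} [CommRing A] (P : Id) (φ : dec P) (ρ : dec P → M2 A) : Prop :=
  ∃ (w : Fin 2 → A) (α : A), w ≠ 0 ∧ α ^ 2 ≠ 1 ∧ (∀ i : dec P, Inert P i → w ᵥ* ρ i = w) ∧
    w ᵥ* ρ φ = α • w

/-- all ordinary points with values in discrete valuation rings lie on `J` -/
def AllD {O τ : Type} [CommRing O] [IsLocalRing O] (P : Id) (φ : dec P) (I J : Ideal (PS O τ))
    (f : dec P → M2 (PS O τ)) : Prop :=
  ∀ (V : Type) [CommRing V] [IsDomain V] [IsDiscreteValuationRing V] [Cf V] [CharZero V]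
    [Algebra O V] (x : PS O τ →ₐ[O] V), (∀ u ∈ maximalIdeal (PS O τ), x u ∈ maximalIdeal V) →
    (∀ u ∈ I, x u = 0) → Ord P φ (fun y => (f y).map x) → ∀ u ∈ J, x u = 0

/-- all ordinary closed points of the generic fibre lie on `J` -/
def AllF {O τ : Type} [CommRing O] (P : Id) (φ : dec P) (I J : Ideal (PS O τ))
    (f : dec P → M2 (PS O τ)) : Prop :=
  ∀ (Ω : Type) [Field Ω] [Algebra O Ω] [FaithfulSMul O Ω] (x : PS O τ →ₐ[O] Ω), Pt I x →
    Ord P φ (fun y => (f y).map x) → ∀ u ∈ J, x u = 0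

/-- **row ORD2** (output of the block) -/
def ORD2 : Prop := ∀ (F O τ : Type) [Field F] [Finite F] [CharP F 2] [CommRing O] [IsDomain O]
  [IsDiscreteValuationRing O] [Cf O] [CharZero O] [Algebra O F] [Fintype τ] (P : Id) (φ : dec P)
  (r : dec P →* M2 F) (s : F → O) (d : dec P →* O) (g : τ → dec P) (p q : τ → Fin 2)
  (I : Ideal (PS O τ)) (f : dec P → M2 (PS O τ)),
  Ov 2 P → Fb 2 P φ → (∀ x, algebraMap O F (s x) = x) → Cyc P d → Uni r s d g p q I f →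
  (∀ i : dec P, Inert P i → r i = 1) → (r φ).trace = 0 →
    ∃ J : Ideal (PS O τ), Par J 4 ∧ I ≤ J ∧ AllD P φ I J f ∧ AllF P φ I J f

/-! ### arithmetic -/

/-- what is used of the decomposition group: `a 0, a 1, a 2` are the characters of `-1, 2, 5` -/
structure Ar (P : Id) (φ : dec P) (g : Fin 3 → dec P) (a : Fin 3 → dec P → ZMod 2) : Prop where
  hom : ∀ i, Coc (fun _ => 1) (a i)
  dual : ∀ i j, a i (g j) = if i = j then 1 else 0
  gen : ∀ b : dec P → ZMod 2, Coc (fun _ => 1) b → (∀ j, b (g j) = 0) → ∀ x, b x = 0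
  cup : ¬ Cup0 (a 2) (a 1)
  unr : ∀ i : dec P, Inert P i → a 2 i = 0
  frb : a 2 φ = 1
  ram : ∃ i : dec P, Inert P i ∧ ∀ ζ : Qb, ζ ^ 2 ^ 2 = 1 → (i : GQ) ζ = ζ ^ 3
  den : ∀ U : Subgroup (dec P), IsOpen (U : Set (dec P)) → ∀ x,
    ∃ (k : ℕ) (i : dec P), Inert P i ∧ ∃ u ∈ U, x = u * φ ^ k * i
  pw : ∀ (x : dec P) (n : ℕ), ∃ k : ℕ, Odd k ∧ ∀ ζ : Qb, ζ ^ 2 ^ n = 1 → (x : GQ) ζ = ζ ^ k
  cts : ∀ n : ℕ, IsOpen {x : dec P | ∀ ζ : Qb, ζ ^ 2 ^ n = 1 → (x : GQ) ζ = ζ}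
  kum : ∀ (A : Type) [CommRing A] (m M : ℕ) (e lam : dec P →* A) (j : Fin 3), 0 < M →
    (2 : A) ^ m = 0 → lam φ ^ M = 1 → Cyc P e → IsOpen {x | lam x = 1} →
    (∀ i : dec P, Inert P i → lam i = 1) → (j = 1 → lam φ = 1) →
      ∃ c : dec P → A, Coc (fun x => e x * lam x) c ∧
        ∀ x, c x - ((a j x).val : A) ∈ Ideal.span {2, lam φ - 1}

/-- row AR -/
def AR : Prop := ∀ (P : Id) (φ : dec P), Ov 2 P → Fb 2 P φ → ∃ g a, Ar P φ g a

section

variable {G A : Type} [Group G] [TopologicalSpace G] [CommRing A] [IsLocalRing A]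

/-- adically continuous cocycles -/
structure Co (χ c : G → A) : Prop where
  mul : ∀ x y, c (x * y) = c x + χ x * c y
  cts : ∀ n : ℕ, IsOpen {x | c x ∈ maximalIdeal A ^ n}

end

/-- unramified characters which are residually trivial -/
structure Ur {A : Type} [CommRing A] [IsLocalRing A] (P : Id) (φ : dec P) (lam : dec P →* A) :
    Prop where
  cts : ∀ n : ℕ, IsOpen {x | lam x - 1 ∈ maximalIdeal A ^ n}
  unr : ∀ i : dec P, Inert P i → lam i = 1
  red : lam φ - 1 ∈ maximalIdeal A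

/-- row LIM: cocycles with values in complete rings -/
def LIM : Prop := ∀ (P : Id) (φ : dec P) (g : Fin 3 → dec P) (a : Fin 3 → dec P → ZMod 2),
  Ar P φ g a → ∀ (A : Type) [CommRing A] [Base A] (e lam : dec P →* A) (j : Fin 3),
  (2 : A) ∈ maximalIdeal A → Cyc P e → Ur P φ lam → (j = 1 → lam φ = 1) →
    ∃ c, Co (fun x => e x * lam x) c ∧ ∀ x, c x - ((a j x).val : A) ∈ maximalIdeal A

/-- row UNQ: away from the cyclotomic character two values determine a cocycle -/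
def UNQ : Prop := ∀ (P : Id) (φ : dec P) (g : Fin 3 → dec P) (a : Fin 3 → dec P → ZMod 2),
  Ar P φ g a → ∀ (V : Type) [CommRing V] [IsDomain V] [IsDiscreteValuationRing V] [Cf V]
  (e lam : dec P →* V) (c : dec P → V), (2 : V) ∈ maximalIdeal V → Cyc P e → Ur P φ lam →
  lam φ ≠ 1 → Co (fun x => e x * lam x) c → c (g 0) = 0 → c (g 2) = 0 → ∀ x, c x = 0

/-! ### algebra -/

/-- row PF: polynomial families -/
def PF : Prop := ∀ (O τ σ A B : Type) [CommRing O] [Fintype τ] [CommRing A] [Algebra O A]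
  [CommRing B] [Algebra O B] (𝔞 : Ideal A) (𝔟 : Ideal B) (Q : τ → MvPolynomial σ A)
  (ψ : PS O τ →ₐ[O] MvPowerSeries σ A) (θ : A →ₐ[O] B) (l : σ → B) (x : PS O τ →ₐ[O] B),
  (∀ t m, (Q t).coeff m ∈ 𝔞) → (∀ t, ψ (X t) = (Q t : MvPowerSeries σ A)) →
  (∀ z ∈ 𝔞, θ z ∈ 𝔟) → (∀ z, (∀ n : ℕ, z ∈ 𝔟 ^ n) → z = 0) →
  (∀ t, x (X t) = MvPolynomial.eval₂ (θ : A →+* B) l (Q t)) → ∀ u, ψ u = 0 → x u = 0

/-- row DVR: a closed point of the generic fibre has values in a discrete valuation ring -/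
def DVR : Prop := ∀ (O τ Ω : Type) [CommRing O] [IsDomain O] [IsDiscreteValuationRing O] [Cf O]
  [CharZero O] [Fintype τ] [Field Ω] [Algebra O Ω] [FaithfulSMul O Ω] (x : PS O τ →ₐ[O] Ω),
  (∀ u, IsIntegral O (x u)) →
    ∃ (V : Type) (_ : CommRing V) (_ : IsDomain V) (_ : IsDiscreteValuationRing V) (_ : Cf V)
      (_ : CharZero V) (_ : Algebra O V) (ι : V →ₐ[O] Ω) (y : PS O τ →ₐ[O] V),
      Function.Injective ι ∧ (∀ u, ι (y u) = x u) ∧
      ∀ u ∈ maximalIdeal (PS O τ), y u ∈ maximalIdeal V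

/-- the universal ring in normal form: the residual representation is `x ↦ (1, c u(x); 0, 1)` -/
structure Nu {G O τ : Type} [Group G] [TopologicalSpace G] [CommRing O] [IsLocalRing O] (c : O)
    (u : G → ZMod 2) (d : G → O) (g : τ → G) (L : τ → M2 O) (k : τ → O) (I : Ideal (PS O τ))
    (f : G → M2 (PS O τ)) : Prop where
  le : I ≤ maximalIdeal (PS O τ)
  one : Cg I (f 1) 1
  mul : ∀ x y, Cg I (f (x * y)) (f x * f y)
  det : ∀ x, (f x).det - C (d x) ∈ I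
  red : ∀ x, Cg (maximalIdeal (PS O τ)) (f x) !![1, C c * ((u x).val : PS O τ); 0, 1]
  crd : ∀ t, ((L t).map C * f (g t)).trace - C (k t) - X t ∈ I
  opn : ∀ n : ℕ, IsOpen {x | Cg (I ⊔ maximalIdeal (PS O τ) ^ n) (f x) 1}
  ex : ∀ (A : Type) [CommRing A] [Base A] [Algebra O A] (ρ : G →* M2 A),
    (∀ o ∈ maximalIdeal O, algebraMap O A o ∈ maximalIdeal A) →
    (∀ n : ℕ, IsOpen {x | Cg (maximalIdeal A ^ n) (ρ x) 1}) →
    (∀ x, Cg (maximalIdeal A) (ρ x) !![1, algebraMap O A c * ((u x).val : A); 0, 1]) →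
    (∀ x, (ρ x).det = algebraMap O A (d x)) →
      ∃ ψ : PS O τ →ₐ[O] A, (∀ t, ψ (X t) ∈ maximalIdeal A) ∧ (∀ v ∈ I, ψ v = 0) ∧
        ∀ x, (f x).map ψ = ρ x

/-- row NRM: the normal form -/
def NRM : Prop := ∀ (F O τ : Type) [Field F] [Finite F] [CharP F 2] [CommRing O] [IsDomain O]
  [IsDiscreteValuationRing O] [Cf O] [Algebra O F] [Fintype τ] (P : Id) (φ : dec P)
  (g₀ : Fin 3 → dec P) (a : Fin 3 → dec P → ZMod 2)
  (r : dec P →* M2 F) (s : F → O) (d : dec P →* O) (g : τ → dec P) (p q : τ → Fin 2)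
  (I : Ideal (PS O τ)) (f : dec P → M2 (PS O τ)),
  Ar P φ g₀ a → (∀ x, algebraMap O F (s x) = x) → Cyc P d → Uni r s d g p q I f →
  (∀ i : dec P, Inert P i → r i = 1) → (r φ).trace = 0 → (2 : O) ∈ maximalIdeal O ∧
    ∃ (c : O) (H H' : M2 O) (L : τ → M2 O) (k : τ → O), (c = 0 ∨ c = 1) ∧ H * H' = 1 ∧
      Nu c (a 2) d g L k I fun x => H'.map C * f x * H.map C

/-- row FAM: the component, in normal form -/
def FAM : Prop := ∀ (O τ : Type) [CommRing O] [IsDomain O]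
  [IsDiscreteValuationRing O] [Cf O] [CharZero O] [Fintype τ] (P : Id) (φ : dec P)
  (g₀ : Fin 3 → dec P) (a : Fin 3 → dec P → ZMod 2) (c : O) (d : dec P →* O) (g : τ → dec P)
  (L : τ → M2 O) (k : τ → O) (I : Ideal (PS O τ)) (f : dec P → M2 (PS O τ)),
  Ov 2 P → Fb 2 P φ → Ar P φ g₀ a → (2 : O) ∈ maximalIdeal O → Cyc P d → (c = 0 ∨ c = 1) →
  Nu c (a 2) d g L k I f → ∃ J : Ideal (PS O τ), Par J 4 ∧ I ≤ J ∧ AllD P φ I J f

end Vale.Agent.P022K.O2
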